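import Vale.Agent.P231.FE.Std
import Vale.Agent.P231.TW.Cone

/-!
# P231, stage 3, block (E), 1: a closed scale invariant form supported in a cone
-/

set_option linter.unusedSectionVars false
set_option linter.unusedVariables false

open Module MeasureTheory Set Metric Filter
open scoped ContDiff Topology

namespace Vale.Agent.P231.S3E

open Vale.Agent.P231.Fm Vale.Agent.P231.FE
open Vale.Agent.P231.Q (dR Cut)
open Vale.Agent.P231.TW (Hom)

variable {W : Type*} [NormedAddCommGroup W] [InnerProductSpace ℝ W] [FiniteDimensional ℝ W]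
  [MeasurableSpace W] [BorelSpace W] {n : ℕ} (b : OrthonormalBasis (Fin (2 * n + 2)) ℝ W)

theorem pb_rad_std {y : W} (hy : y ≠ 0) : pb rad (std b) y = std b y := by
  have h := os_id b
  have h1 : ∀ z : W, z ≠ 0 → psi n (((2 * n + 1).factorial : ℝ)⁻¹)
      (fun _ => ContinuousLinearMap.id ℝ W) (fun _ => wdg b) z = std b z := by
    intro z hz
    have h2 := h.psi_fibre (((2 * n + 1).factorial : ℝ)⁻¹) (f := fun z : W => z)
      differentiableAt_id hz (Filter.Eventually.of_forall fun z => rfl)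
    have h3 : fderiv ℝ (fun z : W => z) z = ContinuousLinearMap.id ℝ W := fderiv_id
    rw [pb_id, h3, Fm.pull_id, inv_mul_cancel₀ (by positivity), one_mul] at h2
    exact h2
  have h2 := h.pb_rad (((2 * n + 1).factorial : ℝ)⁻¹) hy
  rw [h1 y hy] at h2
  rw [← h2]
  have h3 : rad y ≠ 0 := by
    rw [← norm_ne_zero_iff, norm_rad hy]
    exact one_ne_zero
  rw [pb, pb, h1 _ h3]

/-- the angular bump function -/
noncomputable def ab (a : W) (c : ℝ) (y : W) : ℝ :=
  Real.smoothTransition (inner ℝ a (rad y) - c)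

theorem ab_smooth (a : W) (c : ℝ) {y : W} (hy : y ≠ 0) : ContDiffAt ℝ ∞ (ab a c) y := by
  refine Real.smoothTransition.contDiff.contDiffAt.comp y ?_
  exact (contDiffAt_const.inner ℝ (contDiffAt_rad hy)).sub contDiffAt_const

theorem ab_nonneg (a : W) (c : ℝ) (y : W) : 0 ≤ ab a c y := Real.smoothTransition.nonneg _

theorem ab_zero {a : W} {c : ℝ} {y : W} (hy : y ≠ 0) (h : inner ℝ a y ≤ c * ‖y‖) :
    ab a c y = 0 := by
  refine Real.smoothTransition.zero_of_nonpos ?_
  have h1 : inner ℝ a (rad y) = ‖y‖⁻¹ * inner ℝ a y := by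
    rw [rad, inner_smul_right]
  have h2 : 0 < ‖y‖ := norm_pos_iff.2 hy
  rw [h1, sub_nonpos]
  calc ‖y‖⁻¹ * inner ℝ a y ≤ ‖y‖⁻¹ * (c * ‖y‖) := by gcongr
    _ = c := by field_simp

theorem ab_smul (a : W) (c : ℝ) {y : W} {t : ℝ} (ht : 0 < t) : ab a c (t • y) = ab a c y := by
  rw [ab, ab, rad_smul y ht]

theorem ab_rad (a : W) (c : ℝ) {y : W} (hy : y ≠ 0) : ab a c (rad y) = ab a c y := by
  rw [rad]
  exact ab_smul a c (inv_pos.2 (norm_pos_iff.2 hy))

theorem ab_radial (a : W) (c : ℝ) {y : W} (hy : y ≠ 0) : fderiv ℝ (ab a c) y y = 0 := by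
  have h1 : HasDerivAt (fun t : ℝ => t • y) y 1 := by
    simpa using (hasDerivAt_id (1 : ℝ)).smul_const y
  have h2 : HasFDerivAt (ab a c) (fderiv ℝ (ab a c) y) ((1 : ℝ) • y) := by
    rw [one_smul]
    exact ((ab_smooth a c hy).differentiableAt (by simp)).hasFDerivAt
  have h3 := h2.comp_hasDerivAt (1 : ℝ) h1
  refine h3.unique ((hasDerivAt_const (1 : ℝ) (ab a c y)).congr_of_eventuallyEq ?_)
  filter_upwards [lt_mem_nhds (zero_lt_one : (0 : ℝ) < 1)] with t ht
  exact ab_smul a c ht

/-- the bump form -/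
noncomputable def bf (a : W) (c : ℝ) (y : W) : Lam W := ab a c y • std b y

theorem bf_smooth (a : W) (c : ℝ) {y : W} (hy : y ≠ 0) : ContDiffAt ℝ ∞ (bf b a c) y :=
  sm_smul (ab_smooth a c hy) (std_smooth b hy)

theorem bf_deg (a : W) (c : ℝ) (y : W) : Q.IsDeg (2 * n + 1) (bf b a c y) :=
  (std_deg b y).smul _

theorem bf_hom (a : W) (c : ℝ) : Hom (bf b a c) := by
  intro y hy
  have h1 : pb rad (bf b a c) y = ab a c (rad y) • pb rad (std b) y := by
    rw [pb, pb, bf, map_smul]
  rw [h1, ab_rad a c hy, pb_rad_std b hy, bf]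

theorem bf_closed (a : W) (c : ℝ) {y : W} (hy : y ≠ 0) : extd (bf b a c) y = 0 := by
  have h3 : extd (bf b a c) y = dx (fderiv ℝ (ab a c) y) * std b y + ab a c y • extd (std b) y :=
    extd_smul ((ab_smooth a c hy).differentiableAt (by simp))
      ((std_smooth b hy).differentiableAt (by simp))
  rw [h3, extd_std b hy, smul_zero, add_zero, dx_mul_std, ab_radial a c hy, mul_zero, zero_smul]

theorem exists_st_pos : ∃ s ∈ Ioo (0 : ℝ) 1, 0 < deriv Real.smoothTransition s := by
  have h0 : Real.smoothTransition 0 = 0 := Real.smoothTransition.zero_of_nonpos le_rfl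
  have h1 : Real.smoothTransition 1 = 1 := Real.smoothTransition.one_of_one_le le_rfl
  obtain ⟨s, hs, h⟩ := exists_deriv_eq_slope Real.smoothTransition (zero_lt_one : (0 : ℝ) < 1)
    Real.smoothTransition.continuous.continuousOn
    ((Real.smoothTransition.contDiff (n := 1)).differentiable (by norm_num)).differentiableOn
  refine ⟨s, hs, ?_⟩
  rw [h, h0, h1]
  norm_num

theorem monotone_st : Monotone Real.smoothTransition := by
  have h : ∀ s t : ℝ, s ≤ t → Real.smoothTransition s ≤ Real.smoothTransition t := by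
    intro s t hst
    unfold Real.smoothTransition
    have hs := Real.smoothTransition.pos_denom s
    have ht := Real.smoothTransition.pos_denom t
    rw [div_le_div_iff₀ hs ht]
    have h1 := expNegInvGlue.nonneg s
    have h2 := expNegInvGlue.nonneg (1 - t)
    have h3 : expNegInvGlue s ≤ expNegInvGlue t := expNegInvGlue.monotone hst
    have h4 : expNegInvGlue (1 - t) ≤ expNegInvGlue (1 - s) :=
      expNegInvGlue.monotone (by linarith)
    have h5 := expNegInvGlue.nonneg t
    nlinarith [mul_le_mul h3 h4 h2 h5]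
  exact h

theorem deriv_st_nonneg (s : ℝ) : 0 ≤ deriv Real.smoothTransition s :=
  monotone_st.deriv_nonneg

theorem bf_integral_pos {a : W} (ha : ‖a‖ = 1) {c : ℝ} (hc : c < 1) :
    0 < ∫ y, evalForm (dR rst y * bf b a c y) b := by
  have hev : ∀ y : W, evalForm (dR rst y * bf b a c y) b =
      ab a c y * ((‖y‖ ^ (2 * n + 2))⁻¹ * fderiv ℝ rst y y) := by
    intro y
    rw [bf, mul_smul_comm, Q.evalForm_smul, eval_dR_std]
  have hnn : ∀ y : W, 0 ≤ evalForm (dR rst y * bf b a c y) b := by
    intro y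
    rw [hev]
    rcases eq_or_ne y 0 with rfl | hy
    · simp
    · rw [fderiv_rst_self hy]
      have := ab_nonneg a c y
      have := deriv_st_nonneg (‖y‖ - 2)
      positivity
  have hcont : Continuous fun y : W => evalForm (dR rst y * bf b a c y) b :=
    (evalL b).continuous.comp (TW.contDiff_cutmul cut_rst
      (om := bf b a c) fun y hy => (bf_smooth b a c hy).contDiffWithinAt).continuous
  have hcomp : HasCompactSupport fun y : W => evalForm (dR rst y * bf b a c y) b :=
    (TW.compact_cutmul cut_rst (bf b a c)).comp_left (g := evalL b) (map_zero _)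
  refine hcont.integral_pos_of_hasCompactSupport_nonneg_nonzero hcomp hnn (x := ?_) ?_
  · exact (2 + (exists_st_pos.choose)) • a
  · obtain ⟨hs, hd⟩ := exists_st_pos.choose_spec
    set s := exists_st_pos.choose
    have h2 : 0 < 2 + s := by linarith [hs.1]
    have hn : ‖(2 + s) • a‖ = 2 + s := by
      rw [norm_smul, ha, mul_one, Real.norm_of_nonneg h2.le]
    have hy : (2 + s) • a ≠ 0 := by
      rw [← norm_ne_zero_iff, hn]
      exact h2.ne'
    rw [hev, fderiv_rst_self hy, hn, ab_smul a c h2]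
    have h3 : 0 < ab a c a := by
      refine Real.smoothTransition.pos_of_pos ?_
      rw [rad, ha, inv_one, one_smul, real_inner_self_eq_norm_sq, ha]
      linarith
    have h4 : 2 + s - 2 = s := by ring
    rw [h4]
    positivity

/-- **a closed scale invariant form of total integral one supported in a given cone** -/
theorem exists_bump {a : W} (ha : ‖a‖ = 1) {c : ℝ} (hc : c < 1) :
    ∃ om : W → Lam W, ContDiffOn ℝ ∞ om {0}ᶜ ∧ (∀ y, Q.IsDeg (2 * n + 1) (om y)) ∧
      (∀ y ≠ 0, extd om y = 0) ∧ Hom om ∧ (∀ y ≠ 0, inner ℝ a y ≤ c * ‖y‖ → om y = 0) ∧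
      ∫ y, evalForm (dR rst y * om y) b = 1 := by
  set I : ℝ := ∫ y, evalForm (dR rst y * bf b a c y) b with hI
  have hI0 : 0 < I := bf_integral_pos b ha hc
  refine ⟨fun y => I⁻¹ • bf b a c y, ?_, ?_, ?_, ?_, ?_, ?_⟩
  · exact fun y hy => (sm_smul contDiffAt_const (bf_smooth b a c hy)).contDiffWithinAt
  · exact fun y => (bf_deg b a c y).smul _
  · intro y hy
    have h1 := extd_const_smul I⁻¹ ((bf_smooth b a c hy).differentiableAt (by simp))
    rw [h1, bf_closed b a c hy, smul_zero]
  · intro y hy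
    rw [pb, map_smul]
    exact congrArg (I⁻¹ • ·) (bf_hom b a c y hy)
  · intro y hy h
    simp only [bf]
    rw [ab_zero hy h, zero_smul, smul_zero]
  · have h1 : ∀ y, evalForm (dR rst y * I⁻¹ • bf b a c y) b =
        I⁻¹ * evalForm (dR rst y * bf b a c y) b := fun y => by
      rw [mul_smul_comm, Q.evalForm_smul]
    simp only [h1]
    rw [integral_const_mul, ← hI, inv_mul_cancel₀ hI0.ne']

end Vale.Agent.P231.S3E
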