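import Vale.Agent.P231.EN.Std
import Vale.Agent.P231.EN.Main
import Vale.Agent.P231.WG.Bas
import Vale.Agent.P231.S2I.LH1
import Vale.Agent.P231.S3E479.Bump

/-!
# P231, stage 3, block (E), 4: the standard connection form of `ℂ^n ∖ 0`
-/

set_option linter.unusedSectionVars false
set_option linter.unusedVariables false

open Module MeasureTheory Set Filter
open scoped ContDiff Topology

namespace Vale.Agent.P231.S3E

open Vale.Agent.P231.Fm Vale.Agent.P231.S2I
open Vale.Agent.P231.Q (dR Cut)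
open Vale.Agent.P231.EN (om Conn)
open Vale.Agent.P231.EN.Std (beta0 lam0 nsq Lc xc yc)

/-- the real space `ℝ^(2 n)` -/
abbrev WW (n : ℕ) := EuclideanSpace ℝ (Fin (2 * n))

variable (n : ℕ)

/-- complex coordinates -/
noncomputable def LW : WW n ≃L[ℝ] (Fin n → ℂ) :=
  (EuclideanSpace.equiv (Fin (2 * n)) ℝ).trans (Lc n)

/-- the complex structure -/
noncomputable def JW : WW n →L[ℝ] WW n := LinearMap.toContinuousLinearMap
  { toFun := fun z => (LW n).symm (Complex.I • LW n z)
    map_add' := fun z w => by rw [map_add, smul_add, map_add]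
    map_smul' := fun c z => by
      have h : Complex.I • LW n (c • z) = c • (Complex.I • LW n z) := by
        rw [map_smul, smul_comm]
      rw [h, RingHom.id_apply, map_smul] }

theorem LW_JW (z : WW n) : LW n (JW n z) = Complex.I • LW n z :=
  (LW n).apply_symm_apply _

theorem JW_JW (z : WW n) : JW n (JW n z) = -z := by
  apply (LW n).injective
  rw [LW_JW, LW_JW, smul_smul, Complex.I_mul_I, neg_one_smul, map_neg]

/-- the real parts -/
noncomputable def xw (j : Fin n) : WW n →L[ℝ] ℝ := (xc n j).comp (LW n : WW n →L[ℝ] (Fin n → ℂ))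

/-- the imaginary parts -/
noncomputable def yw (j : Fin n) : WW n →L[ℝ] ℝ := (yc n j).comp (LW n : WW n →L[ℝ] (Fin n → ℂ))

theorem xw_JW (j : Fin n) (z : WW n) : xw n j (JW n z) = -yw n j z := by
  change xc n j (LW n (JW n z)) = -yc n j (LW n z)
  rw [LW_JW]
  exact EN.Std.hZx n j _

theorem yw_JW (j : Fin n) (z : WW n) : yw n j (JW n z) = xw n j z := by
  change yc n j (LW n (JW n z)) = xc n j (LW n z)
  rw [LW_JW]
  exact EN.Std.hZy n j _

theorem nsq_eq (z : WW n) : nsq (xw n) (yw n) z = ‖z‖ ^ 2 := by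
  have h := EN.Std.nsq_Lc n (EuclideanSpace.equiv (Fin (2 * n)) ℝ z)
  rw [EuclideanSpace.norm_sq_eq]
  simp only [Real.norm_eq_abs, sq_abs]
  exact h

theorem nsq_pos {z : WW n} (hz : z ≠ 0) : 0 < nsq (xw n) (yw n) z := by
  rw [nsq_eq]
  have := norm_pos_iff.2 hz
  positivity

/-- the standard connection form -/
noncomputable abbrev bw : WW n → Lam (WW n) := beta0 (xw n) (yw n)

theorem conn_bw : Conn (JW n) (bw n) :=
  EN.Std.conn_beta0 _ _ (xw_JW n) (yw_JW n) fun _ hz => nsq_pos n hz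

theorem JW_ne {z : WW n} (hz : z ≠ 0) : JW n z ≠ 0 := fun h => hz (by
  have := JW_JW n z
  rw [h, map_zero] at this
  exact neg_eq_zero.1 this.symm)

theorem finrank_WW : finrank ℝ (WW n) = 2 * n := by
  rw [finrank_euclideanSpace, Fintype.card_fin]

theorem isDeg_bw (z : WW n) : Q.IsDeg 1 (bw n z) := by
  refine Q.IsDeg.smul ?_ _
  refine Q.IsDeg.sum _ fun j _ => ?_
  exact ((Q.isDeg_dx _).smul _).sub ((Q.isDeg_dx _).smul _)

theorem isDeg_extd_bw {z : WW n} (hz : z ≠ 0) : Q.IsDeg 2 (extd (bw n) z) :=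
  Q.IsDeg.extd ((conn_bw n).diff hz) (Eventually.of_forall fun y => isDeg_bw n y)

theorem isDeg_om_bw (m : ℕ) {z : WW n} (hz : z ≠ 0) : Q.IsDeg (2 * m + 1) (om (bw n) m z) := by
  have h := (isDeg_bw n z).mul ((isDeg_extd_bw n hz).pow m)
  rwa [add_comm] at h

/-- the standard form is closed -/
theorem extd_om_bw (m : ℕ) {z : WW (m + 1)} (hz : z ≠ 0) : extd (om (bw (m + 1)) m) z = 0 := by
  rw [(conn_bw (m + 1)).extd_om m hz]
  refine WG.top_eq_zero (m := 2 * (m + 1)) (finrank_WW (m + 1)).le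
    (DegC.q_iff_prt.1 ?_) (JW_ne (m + 1) hz) (EN.iprod_pow ((conn_bw (m + 1)).zero z hz) _)
  exact (isDeg_extd_bw (m + 1) hz).pow (m + 1)

/-- the standard basis -/
noncomputable abbrev bW : OrthonormalBasis (Fin (2 * n)) ℝ (WW n) :=
  EuclideanSpace.basisFun (Fin (2 * n)) ℝ

theorem LW_bW (i : Fin (2 * n)) : LW n (bW n i) = Lc n (Pi.single i 1) := by
  rw [LW, ContinuousLinearEquiv.trans_apply, EuclideanSpace.basisFun_apply]
  rfl

theorem xw_bW (j : Fin n) (i : Fin (2 * n)) :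
    xw n j (bW n i) = if (i : ℕ) = 2 * (j : ℕ) then 1 else 0 := by
  change xc n j (LW n (bW n i)) = _
  rw [LW_bW, EN.Std.xc_Lc, Pi.single_apply, EN.Std.i0]
  simp only [Fin.ext_iff, eq_comm]

theorem yw_bW (j : Fin n) (i : Fin (2 * n)) :
    yw n j (bW n i) = if (i : ℕ) = 2 * (j : ℕ) + 1 then 1 else 0 := by
  change yc n j (LW n (bW n i)) = _
  rw [LW_bW, EN.Std.yc_Lc, Pi.single_apply, EN.Std.i1]
  simp only [Fin.ext_iff, eq_comm]

/-- the radial cut-off -/
noncomputable def uw (z : WW n) : ℝ := EN.Std.chr (nsq (xw n) (yw n) z)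

theorem encut_uw : EN.Cut (uw n) where
  smooth := EN.Std.contDiff_chr.comp (EN.Std.contDiff_nsq _ _)
  near := by
    have h1 : ContinuousAt (fun z : WW n => ‖z‖ ^ 2) 0 := by fun_prop
    have h2 : ∀ᶠ z in 𝓝 (0 : WW n), ‖z‖ ^ 2 < 1 / 2 :=
      h1.eventually_lt_const (by simp)
    filter_upwards [h2] with z hz
    rw [uw, nsq_eq]
    exact EN.Std.chr_zero hz.le
  far := by
    refine ⟨Metric.closedBall 0 1, isCompact_closedBall _ _, fun z hz => ?_⟩
    rw [mem_closedBall_zero_iff, not_le] at hz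
    rw [uw, nsq_eq]
    exact EN.Std.chr_one (by nlinarith)

theorem encut_of {r : WW n → ℝ} {K : Set (WW n)} (hr : Cut r K) : EN.Cut r :=
  ⟨hr.smooth, hr.zero, K, hr.compact, hr.one⟩

/-- **the value of the standard form** -/
theorem integral_om_bw (m : ℕ) {r : WW (m + 1) → ℝ} {K : Set (WW (m + 1))} (hr : Cut r K) :
    ∫ y, evalForm (dR r y * om (bw (m + 1)) m y) (bW (m + 1)) = (2 * Real.pi) ^ (m + 1) := by
  have h1 := EN.cut_indep volume (fun x hx => JW_ne (m + 1) hx) (conn_bw (m + 1))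
    (encut_of (m + 1) hr) (encut_uw (m + 1)) (m := m) (finrank_WW (m + 1)).le (bW (m + 1))
  refine h1.trans ?_
  rw [← EN.Std.density_integral m, ← (PiLp.volume_preserving_toLp
    (Fin (2 * (m + 1)))).integral_comp (MeasurableEquiv.toLp 2 _).measurableEmbedding]
  refine integral_congr_ae ?_
  have h0 : ∀ᵐ y : Fin (2 * (m + 1)) → ℝ, y ≠ 0 := by
    have : (volume : Measure (Fin (2 * (m + 1)) → ℝ)) {0} = 0 := measure_singleton _
    filter_upwards [compl_mem_ae_iff.2 this] with y hy using hy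
  filter_upwards [h0] with y hy
  have hz : (WithLp.toLp 2 y : WW (m + 1)) ≠ 0 := fun h => hy (by
    have := congrArg (EuclideanSpace.equiv (Fin (2 * (m + 1))) ℝ) h
    rw [map_zero] at this
    exact this)
  have key := EN.Std.integrand_eq (xw (m + 1)) (yw (m + 1)) (χ := EN.Std.chr) (n := m + 1)
    (by omega) (nsq_pos (m + 1) hz) (EN.Std.contDiff_chr.differentiable (by simp) _)
    (bW (m + 1)).toBasis (fun j i => by
      rw [OrthonormalBasis.coe_toBasis]; exact xw_bW (m + 1) j i) (fun j i => by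
      rw [OrthonormalBasis.coe_toBasis]; exact yw_bW (m + 1) j i)
  have hn : nsq (xw (m + 1)) (yw (m + 1)) (WithLp.toLp 2 y : WW (m + 1)) = ∑ i, y i ^ 2 := by
    rw [nsq_eq, EuclideanSpace.norm_sq_eq]
    simp only [Real.norm_eq_abs, sq_abs]
  rw [hn, Nat.add_sub_cancel, OrthonormalBasis.coe_toBasis] at key
  exact key

end Vale.Agent.P231.S3E
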