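import Vale.Agent.P231.S3E479.Std

/-!
# P231, stage 3, block (E), 5: the rotation of `ℂ^n` and the standard connection form
-/

set_option linter.unusedSectionVars false
set_option linter.unusedVariables false

open Module MeasureTheory Set Filter
open scoped ContDiff Topology

namespace Vale.Agent.P231.S3E

open Vale.Agent.P231.Fm Vale.Agent.P231.S2I Vale.Agent.P231.W Vale.Agent.P231.H584
open Vale.Agent.P231.Q (dR Cut)
open Vale.Agent.P231.EN (om Conn)
open Vale.Agent.P231.EN.Std (beta0 lam0 nsq Lc xc yc)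

variable (n : ℕ)

/-- the rotation `(z, t) ↦ e^{i c t} z` -/
noncomputable def RW (c : ℝ) (p : WW n × ℝ) : WW n :=
  Real.cos (c * p.2) • p.1 + Real.sin (c * p.2) • JW n p.1

theorem contDiff_RW (c : ℝ) : ContDiff ℝ ∞ (RW n c) := by
  have h1 : ContDiff ℝ ∞ fun p : WW n × ℝ => Real.cos (c * p.2) • p.1 :=
    (Real.contDiff_cos.comp (contDiff_const.mul contDiff_snd)).smul contDiff_fst
  have h2 : ContDiff ℝ ∞ fun p : WW n × ℝ => Real.sin (c * p.2) • JW n p.1 :=
    (Real.contDiff_sin.comp (contDiff_const.mul contDiff_snd)).smul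
      ((JW n).contDiff.comp contDiff_fst)
  exact h1.add h2

theorem LW_RW (c : ℝ) (p : WW n × ℝ) :
    LW n (RW n c p) = Complex.exp ((c * p.2 : ℝ) * Complex.I) • LW n p.1 := by
  rw [RW, map_add, map_smul, map_smul, LW_JW, Complex.exp_mul_I, add_smul, mul_smul]
  congr 1
  · rw [← Complex.ofReal_cos, Complex.coe_smul]
  · rw [← Complex.ofReal_sin, Complex.coe_smul]

theorem hasFDerivAt_RW (c : ℝ) (x : WW n) (t : ℝ) : HasFDerivAt (RW n c)
    ((Real.cos (c * t) • ContinuousLinearMap.id ℝ (WW n) + Real.sin (c * t) • JW n).comp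
        (ContinuousLinearMap.fst ℝ (WW n) ℝ) +
      (c • (ContinuousLinearMap.snd ℝ (WW n) ℝ)).smulRight (JW n (RW n c (x, t)))) (x, t) := by
  have h1 : HasFDerivAt (fun p : WW n × ℝ => c * p.2) (c • ContinuousLinearMap.snd ℝ (WW n) ℝ)
      (x, t) := (ContinuousLinearMap.snd ℝ (WW n) ℝ).hasFDerivAt.const_mul c
  have h2 := h1.cos
  have h3 := h1.sin
  have h4 : HasFDerivAt (fun p : WW n × ℝ => p.1) (ContinuousLinearMap.fst ℝ (WW n) ℝ) (x, t) :=
    (ContinuousLinearMap.fst ℝ (WW n) ℝ).hasFDerivAt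
  have h5 : HasFDerivAt (fun p : WW n × ℝ => JW n p.1)
      ((JW n).comp (ContinuousLinearMap.fst ℝ (WW n) ℝ))
      (x, t) := ((JW n).comp (ContinuousLinearMap.fst ℝ (WW n) ℝ)).hasFDerivAt
  have h6 := (h2.smul h4).add (h3.smul h5)
  refine h6.congr_fderiv ?_
  refine ContinuousLinearMap.ext fun p => ?_
  simp [RW, JW_JW]
  module

/-- the linear form `λ_z` -/
noncomputable def lamv (z : WW n) : WW n →L[ℝ] ℝ :=
  ∑ j, (xw n j z • yw n j - yw n j z • xw n j)

theorem lam0_eq (z : WW n) : lam0 (xw n) (yw n) z = dx (lamv n z) := by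
  rw [lamv, map_sum, lam0]
  exact Finset.sum_congr rfl fun j _ => by rw [map_sub, map_smul, map_smul]

theorem lamv_apply (z y : WW n) : lamv n z y =
    ∑ j, (xw n j z * yw n j y - yw n j z * xw n j y) := by
  rw [lamv, sum_apply]
  exact Finset.sum_congr rfl fun j _ => rfl

theorem xw_RW (c : ℝ) (j : Fin n) (p : WW n × ℝ) : xw n j (RW n c p) =
    Real.cos (c * p.2) * xw n j p.1 - Real.sin (c * p.2) * yw n j p.1 := by
  rw [RW, map_add, map_smul, map_smul, xw_JW, smul_eq_mul, smul_eq_mul]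
  ring

theorem yw_RW (c : ℝ) (j : Fin n) (p : WW n × ℝ) : yw n j (RW n c p) =
    Real.cos (c * p.2) * yw n j p.1 + Real.sin (c * p.2) * xw n j p.1 := by
  rw [RW, map_add, map_smul, map_smul, yw_JW, smul_eq_mul, smul_eq_mul]

theorem nsq_RW (c : ℝ) (p : WW n × ℝ) :
    nsq (xw n) (yw n) (RW n c p) = nsq (xw n) (yw n) p.1 := by
  rw [nsq, nsq]
  refine Finset.sum_congr rfl fun j _ => ?_
  rw [xw_RW, yw_RW]
  linear_combination (xw n j p.1 ^ 2 + yw n j p.1 ^ 2) * Real.sin_sq_add_cos_sq (c * p.2)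

theorem norm_RW (c : ℝ) (p : WW n × ℝ) : ‖RW n c p‖ = ‖p.1‖ := by
  have h := nsq_RW n c p
  rw [nsq_eq, nsq_eq] at h
  exact (pow_left_inj₀ (norm_nonneg _) (norm_nonneg _) two_ne_zero).1 h

theorem RW_ne_zero (c : ℝ) {p : WW n × ℝ} (h : p.1 ≠ 0) : RW n c p ≠ 0 := fun h0 => h (by
  have := norm_RW n c p
  rw [h0, norm_zero] at this
  exact norm_eq_zero.1 this.symm)

theorem lamv_RW (c : ℝ) (x : WW n) (t : ℝ) :
    (lamv n (RW n c (x, t))).comp (fderiv ℝ (RW n c) (x, t)) =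
      (lamv n x).comp (ContinuousLinearMap.fst ℝ (WW n) ℝ) +
        (c * nsq (xw n) (yw n) x) • ContinuousLinearMap.snd ℝ (WW n) ℝ := by
  rw [(hasFDerivAt_RW n c x t).fderiv]
  refine ContinuousLinearMap.ext fun p => ?_
  have h1 : (Real.cos (c * t) • ContinuousLinearMap.id ℝ (WW n) + Real.sin (c * t) • JW n) p.1 =
      RW n c (p.1, t) := by simp [RW]
  have h2 : lamv n (RW n c (x, t)) (RW n c (p.1, t)) = lamv n x p.1 := by
    rw [lamv_apply, lamv_apply]
    refine Finset.sum_congr rfl fun j _ => ?_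
    rw [xw_RW, xw_RW, yw_RW, yw_RW]
    linear_combination (xw n j x * yw n j p.1 - yw n j x * xw n j p.1) *
      Real.sin_sq_add_cos_sq (c * t)
  have h3 : lamv n (RW n c (x, t)) (JW n (RW n c (x, t))) = nsq (xw n) (yw n) x := by
    have h4 := nsq_RW n c (x, t)
    rw [← h4, lamv_apply, nsq]
    refine Finset.sum_congr rfl fun j _ => ?_
    rw [xw_JW, yw_JW]
    ring
  change lamv n (RW n c (x, t))
    ((Real.cos (c * t) • ContinuousLinearMap.id ℝ (WW n) + Real.sin (c * t) • JW n) p.1 +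
      (c * p.2) • JW n (RW n c (x, t))) = lamv n x p.1 + (c * nsq (xw n) (yw n) x) * p.2
  rw [h1, map_add, map_smul, h2, h3, smul_eq_mul]
  ring

/-- the standard form under the rotation -/
theorem pb_RW (c : ℝ) {x : WW n} (hx : x ≠ 0) (t : ℝ) :
    pb (RW n c) (bw n) (x, t) = Fm.pull (ContinuousLinearMap.fst ℝ (WW n) ℝ) (bw n x) +
      c • dx (ContinuousLinearMap.snd ℝ (WW n) ℝ) := by
  have h0 := (nsq_pos n hx).ne'
  have h1 : nsq (xw n) (yw n) (RW n c (x, t)) = nsq (xw n) (yw n) x := nsq_RW n c (x, t)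
  rw [pb, bw, beta0, beta0, h1, lam0_eq, lam0_eq, map_smul, map_smul, pull_dx, pull_dx, lamv_RW,
    map_add, map_smul, smul_add, smul_smul]
  congr 2
  field_simp

end Vale.Agent.P231.S3E
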