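import Vale.Agent.P231.WF.UecUT
import Vale.Agent.P231.WQ.Glue
import Vale.Agent.P231.WG.FrameFr
import Vale.Agent.P231.WG.BasUT
import Vale.Agent.P231.H649.Sard
import Vale.Agent.P231.S3E479.Rot

/-!
# P231, stage 3, block (E), 8: an equivariant map of the unit tangent bundle to `ℂ^(N+1) ∖ 0`
-/

set_option maxSynthPendingDepth 3
set_option linter.unusedSectionVars false
set_option linter.unusedVariables false

open Bundle Manifold Set Filter Module Topology MeasureTheory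
open scoped ContDiff Manifold Topology

namespace Vale.Agent.P231.S3E

open Vale.Agent.P234 Vale.Agent.P231 Vale.Agent.P231.Fm Vale.Agent.P231.W Vale.Agent.P231.H775
  Vale.Agent.P231.WG Vale.Agent.P231.H766

noncomputable section

/-- a point which is not on the real lines through the points of a smooth image of small
dimension -/
theorem exists_line {V W : Type*} [NormedAddCommGroup V] [NormedSpace ℝ V]
    [FiniteDimensional ℝ V] [NormedAddCommGroup W] [NormedSpace ℝ W] [FiniteDimensional ℝ W]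
    {f : V → W} {T : Set V} (hf : ∀ s ∈ T, DifferentiableAt ℝ f s)
    (hX : finrank ℝ V + 1 < finrank ℝ W) :
    ∃ a : W, a ≠ 0 ∧ ∀ (t : ℝ), ∀ s ∈ T, t • f s ≠ a := by
  borelize W
  let g : V × ℝ → W := fun p => p.2 • f p.1
  have h1 : Measure.addHaar (g '' (T ×ˢ univ)) = 0 := by
    refine H649.sard_ker (Measure.addHaar : Measure W) (g := g) ?_ (fun s hs => ?_)
      (fun s _ => Or.inl ?_)
    · rw [finrank_prod, finrank_self]; omega
    · exact (differentiable_snd s).smul ((hf s.1 hs.1).comp s differentiableAt_fst)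
    · rw [finrank_prod, finrank_self]; omega
  have hW : 0 < finrank ℝ W := by omega
  have : Nontrivial W := Module.nontrivial_of_finrank_pos hW
  have h2 : (Measure.addHaar : Measure W) ({0}ᶜ : Set W) ≠ 0 :=
    (isOpen_compl_singleton.measure_pos _ (by
      obtain ⟨w, hw⟩ := exists_ne (0 : W)
      exact ⟨w, hw⟩)).ne'
  by_contra hcon
  push Not at hcon
  apply h2
  refine measure_mono_null (fun a ha => ?_) h1
  obtain ⟨t, x, hx, h3⟩ := hcon a ha
  exact ⟨(x, t), ⟨hx, mem_univ _⟩, h3⟩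

/-- a linear map with kernel a given line -/
theorem exists_lin {k : ℕ} {a : Fin (k + 1) → ℂ} (ha : a ≠ 0) :
    ∃ P : (Fin (k + 1) → ℂ) →L[ℂ] (Fin k → ℂ), ∀ z, P z = 0 → ∃ c : ℂ, z = c • a := by
  let S : Submodule ℂ (Fin (k + 1) → ℂ) := Submodule.span ℂ {a}
  have h1 : finrank ℂ ((Fin (k + 1) → ℂ) ⧸ S) = finrank ℂ (Fin k → ℂ) := by
    have h2 := S.finrank_quotient_add_finrank
    have h3 : finrank ℂ S = 1 := finrank_span_singleton ha
    rw [h3, finrank_fin_fun] at h2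
    rw [finrank_fin_fun]
    omega
  let e : ((Fin (k + 1) → ℂ) ⧸ S) ≃ₗ[ℂ] (Fin k → ℂ) := LinearEquiv.ofFinrankEq _ _ h1
  refine ⟨LinearMap.toContinuousLinearMap (e.toLinearMap ∘ₗ S.mkQ), fun z hz => ?_⟩
  have h4 : e (S.mkQ z) = 0 := hz
  have h5 : S.mkQ z = 0 := by simpa using h4
  rw [Submodule.mkQ_apply, Submodule.Quotient.mk_eq_zero] at h5
  obtain ⟨c, hc⟩ := Submodule.mem_span_singleton.1 h5
  exact ⟨c, hc.symm⟩

/-- an injective linear map -/
theorem exists_inj {k l : ℕ} (h : k ≤ l) :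
    ∃ P : (Fin k → ℂ) →L[ℂ] (Fin l → ℂ), ∀ z, P z = 0 → z = 0 := by
  refine ⟨LinearMap.toContinuousLinearMap
    { toFun := fun z i => if hi : (i : ℕ) < k then z ⟨i, hi⟩ else 0
      map_add' := fun z w => by
        funext i
        by_cases hi : (i : ℕ) < k <;> simp [hi]
      map_smul' := fun c z => by
        funext i
        by_cases hi : (i : ℕ) < k <;> simp [hi] }, fun z hz => ?_⟩
  funext i
  have h1 := congrFun hz ⟨i, lt_of_lt_of_le i.2 h⟩
  have h2 : (if hi : (i : ℕ) < k then z ⟨i, hi⟩ else 0) = z i := dif_pos i.2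
  exact h2.symm.trans h1

variable {E : Type*} [NormedAddCommGroup E] [NormedSpace ℝ E]
  {M : Type*} [MetricSpace M] [ChartedSpace E M]
  [RiemannianBundle (fun x : M => TangentSpace 𝓘(ℝ, E) x)]
  {e : ∀ x : M, TangentSpace 𝓘(ℝ, E) x → M}
  [FiniteDimensional ℝ E] [IsManifold 𝓘(ℝ, E) ∞ M]
  [IsContMDiffRiemannianBundle 𝓘(ℝ, E) ∞ E (fun x : M => TangentSpace 𝓘(ℝ, E) x)]
  {p : M} {R : ℝ} {N : ℕ}
  [CompactSpace M] [ConnectedSpace M] [IsRiemannianManifold 𝓘(ℝ, E) M]

/-- the coordinates cover the unit tangent bundle -/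
theorem cc_surj (F : Facts e) {D : ℝ} (hdiam : ∀ p q : M, dist p q ≤ D) (X : Fr e p R)
    (v0 : UT E M) (hDR : D < R) (v : UT E M) :
    ∃ x y : Eu E, ‖x‖ ≤ D ∧ y ≠ 0 ∧ cc X v0 (x, y) = v := by
  obtain ⟨u, hu1, hu2⟩ := F.hopfRinow p (foot v)
  set x : Eu E := (fr (E := E) p).symm u with hx
  have hfx : (fr (E := E) p x : E) = u := (fr (E := E) p).apply_symm_apply u
  have hxD : ‖x‖ ≤ D := by
    have h1 := hdiam p (foot v)
    rw [hu2] at h1
    have h2 := nm_fr (E := E) p x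
    rw [hfx] at h2
    rw [← h2]
    exact h1
  have hxR : ‖x‖ < R := hxD.trans_lt hDR
  obtain ⟨y, hy⟩ := WQ.B_surj X hxR (vec' v)
  have hy0 : y ≠ 0 := fun h0 => by
    rw [h0, map_zero] at hy
    exact vec'_ne_zero v hy.symm
  have hef : ef e p x = foot v := by
    rw [← hu1, ← hfx]
    rfl
  refine ⟨x, y, hxD, hy0, ?_⟩
  have hnr : X.nr (x, y) = 1 := by
    change nm (ef e p x) (X.B x y) = 1
    rw [hy, hef]
    exact nm_vec' v
  rw [cc_eq X v0 (z := (x, y)) hxR hy0, ← mk_eta v]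
  refine mk_congr hef ?_
  rw [hnr, inv_one, one_smul]
  exact hy

/-- a nowhere zero equivariant map of the unit tangent bundle to `ℂ^k` -/
structure EqMap (F : Facts e) (D : ℝ) (k : ℕ) (H : UT E M → (Fin k → ℂ)) : Prop where
  smooth : (dUT E M).Map (Dif.lin (Fin k → ℂ)) H
  ne : ∀ v, H v ≠ 0
  equi : ∀ v t, H (phi F (v, t)) = Complex.exp ((Real.pi / D * t : ℝ) * Complex.I) • H v

/-- existence of an equivariant map -/
theorem exists_eqMap (F : Facts e) {D : ℝ} (hD : 0 < D) (hB : InjGE e D)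
    (hdiam : ∀ p q : M, dist p q ≤ D) :
    ∃ (k : ℕ) (H : UT E M → (Fin k → ℂ)), EqMap F D k H := by
  let _ := WF.topUT E M
  have : CompactSpace (UT E M) := WF.compactSpace_UT
  obtain ⟨δ, L, hδ, hL, hcov⟩ := exists_list (A := WF.actUT F hD hB hdiam)
    (fun G hG => WF.continuous_of_map_dUT (WF.plotsCont_lin ℂ) hG)
    (fun v => WF.fou_ne F hD hB hdiam v)
  refine ⟨L.length, fun v i => L.get i v, fun {V} _ _ _ {u x} hu => ?_, fun v h0 => ?_,
    fun v t => ?_⟩
  · have h1 : ∀ i : Fin L.length, Sm (fun y => L.get i (u y)) x := fun i =>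
      (hL _ (L.get_mem i)).1 hu
    have h2 : ∀ᶠ y in 𝓝 x, ∀ i : Fin L.length, ContDiffAt ℝ ∞ (fun y => L.get i (u y)) y :=
      eventually_all.2 h1
    have h3 : Sm (fun y => fun i : Fin L.length => L.get i (u y)) x := by
      filter_upwards [h2] with y hy using contDiffAt_pi.2 hy
    exact h3
  · obtain ⟨G, hG, h1⟩ := hcov v
    obtain ⟨i, rfl⟩ := List.get_of_mem hG
    have h2 : L.get i v = 0 := congrFun h0 i
    rw [h2, norm_zero] at h1
    exact absurd h1 (not_le.2 hδ)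
  · funext i
    have h1 := (hL _ (L.get_mem i)).2 v (t / (2 * D))
    have h2 : (WF.actUT F hD hB hdiam).φ v (t / (2 * D)) = phi F (v, t) := by
      change phi F (v, 2 * D * (t / (2 * D))) = _
      congr 2
      field_simp
    have h3 : 2 * Real.pi * (t / (2 * D)) = Real.pi / D * t := by field_simp
    rw [h2, h3] at h1
    exact h1

/-- linear images -/
theorem EqMap.lin {F : Facts e} {D : ℝ} {k l : ℕ} {H : UT E M → (Fin k → ℂ)}
    (h : EqMap F D k H) (P : (Fin k → ℂ) →L[ℂ] (Fin l → ℂ)) (hP : ∀ v, P (H v) ≠ 0) :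
    EqMap F D l (fun v => P (H v)) where
  smooth := fun {V} _ _ _ {u x} hu =>
    Sm.comp (f := fun z => P z) (Sm.of_contDiff (P.restrictScalars ℝ).contDiff _) (h.smooth hu)
  ne := hP
  equi := fun v t => by rw [h.equi, map_smul]

/-- the generic projection -/
theorem EqMap.step (F : Facts e) {D : ℝ} (hD : 0 < D) (hB : InjGE e D)
    (hdiam : ∀ p q : M, dist p q ≤ D) (hN : finrank ℝ E = N + 1) {k : ℕ} (hk : N + 1 ≤ k)
    {H : UT E M → (Fin (k + 1) → ℂ)} (h : EqMap F D (k + 1) H) :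
    ∃ P : (Fin (k + 1) → ℂ) →L[ℂ] (Fin k → ℂ), ∀ v, P (H v) ≠ 0 := by
  rcases isEmpty_or_nonempty (UT E M) with hemp | ⟨⟨v0⟩⟩
  · exact ⟨0, fun v => (hemp.false v).elim⟩
  obtain ⟨X⟩ := nonempty_fr F hD hB (foot v0) (D + 1)
  have hDR : D < D + 1 := lt_add_one D
  have hfE : finrank ℝ (Eu E) = N + 1 := by
    rw [finrank_euclideanSpace, Fintype.card_fin, hN]
  obtain ⟨a, ha, h1⟩ := exists_line (V := Eu E × Eu E) (W := Fin (k + 1) → ℂ)
    (f := fun z => H (cc X v0 z)) (T := Metric.ball 0 (D + 1) ×ˢ {0}ᶜ) (fun s hs => by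
      have h3 : Sm (fun z : Eu E × Eu E => H (cc X v0 z)) s :=
        h.smooth (at_cc X v0 (mem_ball_zero_iff.1 hs.1) hs.2)
      exact h3.differentiableAt) (by
      have h4 : finrank ℝ (Fin (k + 1) → ℂ) = 2 * (k + 1) := by
        have := finrank_real_of_complex (Fin (k + 1) → ℂ)
        rw [this, finrank_fin_fun]
      rw [finrank_prod, hfE, h4]
      omega)
  obtain ⟨P, hP⟩ := exists_lin ha
  refine ⟨P, fun v hv => ?_⟩
  obtain ⟨c, hc⟩ := hP _ hv
  have hc0 : c ≠ 0 := fun h0 => h.ne v (by rw [hc, h0, zero_smul])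
  -- `a` is on a complex line through `H v`, hence on a real line through a point of the orbit
  have h2 : a = c⁻¹ • H v := by rw [hc, smul_smul, inv_mul_cancel₀ hc0, one_smul]
  set θ : ℝ := Complex.arg c⁻¹ with hθ
  have h3 : c⁻¹ = (‖c⁻¹‖ : ℝ) * Complex.exp (θ * Complex.I) := (Complex.norm_mul_exp_arg_mul_I _).symm
  have h4 : H (phi F (v, θ * D / Real.pi)) = Complex.exp (θ * Complex.I) • H v := by
    rw [h.equi]
    congr 3
    have := Real.pi_ne_zero
    have := hD.ne'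
    congr 1
    field_simp
  have h5 : a = (‖c⁻¹‖ : ℝ) • H (phi F (v, θ * D / Real.pi)) := by
    rw [h4, h2, ← Complex.coe_smul (‖c⁻¹‖ : ℝ), smul_smul, ← h3]
  obtain ⟨x, y, hx, hy, hxy⟩ := cc_surj F hdiam X v0 hDR (phi F (v, θ * D / Real.pi))
  exact h1 ‖c⁻¹‖ (x, y) ⟨mem_ball_zero_iff.2 (hx.trans_lt hDR), hy⟩ (by
    rw [hxy, ← h5])

/-- **generic linear projection to `ℂ^(N+1)`** -/
theorem EqMap.exists_proj (F : Facts e) {D : ℝ} (hD : 0 < D) (hB : InjGE e D)
    (hdiam : ∀ p q : M, dist p q ≤ D) (hN : finrank ℝ E = N + 1) (k : ℕ) :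
    ∀ {H : UT E M → (Fin k → ℂ)}, EqMap F D k H →
      ∃ P : (Fin k → ℂ) →L[ℂ] (Fin (N + 1) → ℂ), ∀ v, P (H v) ≠ 0 := by
  induction k with
  | zero =>
    intro H h
    obtain ⟨P, hP⟩ := exists_inj (Nat.zero_le (N + 1))
    exact ⟨P, fun v hv => h.ne v (hP _ hv)⟩
  | succ k ih =>
    intro H h
    rcases Nat.lt_or_ge k (N + 1) with hk | hk
    · obtain ⟨P, hP⟩ := exists_inj (show k + 1 ≤ N + 1 from hk)
      exact ⟨P, fun v hv => h.ne v (hP _ hv)⟩
    · obtain ⟨P, hP⟩ := h.step F hD hB hdiam hN hk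
      obtain ⟨P', hP'⟩ := ih (h.lin P hP)
      exact ⟨P'.comp P, hP'⟩

/-- **the equivariant map** -/
theorem exists_eqMap' (F : Facts e) {D : ℝ} (hD : 0 < D) (hB : InjGE e D)
    (hdiam : ∀ p q : M, dist p q ≤ D) (hN : finrank ℝ E = N + 1) :
    ∃ H : UT E M → (Fin (N + 1) → ℂ), EqMap F D (N + 1) H := by
  obtain ⟨k, H, h⟩ := exists_eqMap F hD hB hdiam
  obtain ⟨P, hP⟩ := EqMap.exists_proj F hD hB hdiam hN k h
  exact ⟨_, h.lin P hP⟩

/-- the equivariant map to the real space -/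
theorem EqMap.real {F : Facts e} {D : ℝ} {n : ℕ} {H : UT E M → (Fin n → ℂ)}
    (h : EqMap F D n H) :
    (dUT E M).Map (Dif.lin (WW n)) (fun v => (LW n).symm (H v)) ∧
      (∀ v, (LW n).symm (H v) ≠ 0) ∧
      ∀ v t, (LW n).symm (H (phi F (v, t))) = RW n (Real.pi / D) ((LW n).symm (H v), t) := by
  refine ⟨fun {V} _ _ _ {u x} hu => ?_, fun v h0 => h.ne v ?_, fun v t => ?_⟩
  · exact Sm.comp (f := fun z => (LW n).symm z)
      (Sm.of_contDiff (LW n).symm.contDiff _) (h.smooth hu)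
  · have := congrArg (LW n) h0
    rwa [map_zero, (LW n).apply_symm_apply] at this
  · apply (LW n).injective
    rw [(LW n).apply_symm_apply, LW_RW, (LW n).apply_symm_apply, h.equi]

end

end Vale.Agent.P231.S3E
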