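import Vale.Agent.P231.S3E479.E2
import Vale.Agent.P231.S3E479.Equi

/-!
# P231, stage 3, block (E): the integral `∫ α (dα)^N` over the unit tangent bundle is an integral
multiple of `(2 D)^(N+1)` (Weinstein's integer)
-/

set_option maxSynthPendingDepth 3
set_option linter.unusedSectionVars false
set_option linter.unusedVariables false

open Bundle Manifold Set Filter Module Topology MeasureTheory
open scoped ContDiff Manifold Topology

namespace Vale.Agent.P231.S3E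

open Vale.Agent.P234 Vale.Agent.P231 Vale.Agent.P231.Fm Vale.Agent.P231.W Vale.Agent.P231.H775
  Vale.Agent.P231.WG

noncomputable section

variable {E : Type*} [NormedAddCommGroup E] [NormedSpace ℝ E]
  {M : Type*} [MetricSpace M] [ChartedSpace E M]
  [RiemannianBundle (fun x : M => TangentSpace 𝓘(ℝ, E) x)]
  {e : ∀ x : M, TangentSpace 𝓘(ℝ, E) x → M}
  [FiniteDimensional ℝ E] [IsManifold 𝓘(ℝ, E) ∞ M]
  [IsContMDiffRiemannianBundle 𝓘(ℝ, E) ∞ E (fun x : M => TangentSpace 𝓘(ℝ, E) x)]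
  {p : M} {R : ℝ} {N : ℕ}
  [CompactSpace M] [ConnectedSpace M] [IsRiemannianManifold 𝓘(ℝ, E) M]

/-- **block (E)**: `∫_{UM} α (dα)^N ∈ (2 D)^(N+1) ℤ` -/
theorem exists_int_alpha (F : Facts e) {D : ℝ} (hD : 0 < D) (hB : InjGE e D)
    (hdiam : ∀ p q : M, dist p q ≤ D)
    (hP : ∀ x y : M, dist x y = D → 2 ≤ finrank ℝ (H775.Pl e D x y))
    (hN : finrank ℝ E = N + 1) (X : Fr e p R) (v0 : UT E M)
    (b : OrthonormalBasis (Fin (N + 1)) ℝ (Eu E)) {r : Eu E → ℝ} {K : Set (Eu E)}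
    (hr : Q.Cut r K) (hDR : D < R) :
    ∃ m : ℤ, II X v0 b.toBasis hr hDR (CV.alpha E M * (CV.alpha E M).d ^ N) =
      (2 * D) ^ (N + 1) * m := by
  obtain ⟨H, h⟩ := exists_eqMap' F hD hB hdiam hN
  obtain ⟨h1, h2, h3⟩ := h.real
  exact exists_int_of_map F hD hB hdiam hP hN X v0 b hr hDR h1 h2 h3

/-- the same with `θ = α / (2 D)`, `e = dθ` -/
theorem exists_int_theta (F : Facts e) {D : ℝ} (hD : 0 < D) (hB : InjGE e D)
    (hdiam : ∀ p q : M, dist p q ≤ D)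
    (hP : ∀ x y : M, dist x y = D → 2 ≤ finrank ℝ (H775.Pl e D x y))
    (hN : finrank ℝ E = N + 1) (X : Fr e p R) (v0 : UT E M)
    (b : OrthonormalBasis (Fin (N + 1)) ℝ (Eu E)) {r : Eu E → ℝ} {K : Set (Eu E)}
    (hr : Q.Cut r K) (hDR : D < R) :
    ∃ m : ℤ, II X v0 b.toBasis hr hDR (((2 * D)⁻¹ • CV.alpha E M) *
      ((2 * D)⁻¹ • (CV.alpha E M).d) ^ N) = m := by
  obtain ⟨m, hm⟩ := exists_int_alpha F hD hB hdiam hP hN X v0 b hr hDR
  refine ⟨m, ?_⟩
  rw [smul_pow, smul_mul_smul_comm, ← pow_succ', map_smul, hm, smul_eq_mul, ← mul_assoc, ← mul_pow,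
    inv_mul_cancel₀ (by positivity), one_pow, one_mul]

end

end Vale.Agent.P231.S3E
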