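import Vale.Agent.P231.S3E479.Rot

/-!
# P231, stage 3, block (E), 9: scale invariant closed forms of top degree on the punctured space
-/

set_option linter.unusedSectionVars false
set_option linter.unusedVariables false

open Module MeasureTheory Set Filter
open scoped ContDiff Topology

namespace Vale.Agent.P231.S3E

open Vale.Agent.P231.Fm Vale.Agent.P231.S2I
open Vale.Agent.P231.Q (dR Cut)
open Vale.Agent.P231.TW (Hom)
open Vale.Agent.P231.EN (om Conn)
open Vale.Agent.P231.EN.Std (beta0 lam0 nsq Lc xc yc)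

section HomForms

variable {W : Type*} [NormedAddCommGroup W] [InnerProductSpace ℝ W] [FiniteDimensional ℝ W]
  [MeasurableSpace W] [BorelSpace W]

theorem rad_ne {y : W} (hy : y ≠ 0) : rad y ≠ 0 := by
  rw [← norm_ne_zero_iff, norm_rad hy]
  exact one_ne_zero

theorem rad_rad {y : W} (hy : y ≠ 0) : rad (rad y) = rad y := by
  rw [rad, norm_rad hy, inv_one, one_smul]

theorem ev_ne {y : W} (hy : y ≠ 0) : ∀ᶠ z in 𝓝 y, z ≠ 0 := isOpen_ne.mem_nhds hy

theorem diff_rad {y : W} (hy : y ≠ 0) : DifferentiableAt ℝ (rad : W → W) y :=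
  (contDiffAt_rad hy).differentiableAt (by simp)

/-- the pull-back by the normalisation is scale invariant -/
theorem hom_pb_rad (ζ : W → Lam W) : Hom (pb rad ζ) := fun y hy => by
  have h1 : pb (fun z => rad (rad z)) ζ y = pb rad (pb rad ζ) y :=
    pb_comp (f := rad) (g := rad) ζ (diff_rad (rad_ne hy)) (diff_rad hy)
  rw [← h1]
  refine pb_congr ζ ?_
  filter_upwards [ev_ne hy] with z hz using rad_rad hz

variable {w v : W → Lam W}

theorem Hom.mul' (h : Hom w) (h' : Hom v) : Hom (fun y => w y * v y) := fun y hy => by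
  have h1 : pb rad (fun y => w y * v y) y = pb rad w y * pb rad v y := map_mul _ _ _
  rw [h1, h y hy, h' y hy]

theorem Hom.smul' (h : Hom w) (c : ℝ) : Hom (fun y => c • w y) := fun y hy => by
  have h1 : pb rad (fun y => c • w y) y = c • pb rad w y := map_smul _ _ _
  rw [h1, h y hy]

theorem Hom.sub' (h : Hom w) (h' : Hom v) : Hom (fun y => w y - v y) := fun y hy => by
  have h1 : pb rad (fun y => w y - v y) y = pb rad w y - pb rad v y := map_sub _ _ _
  rw [h1, h y hy, h' y hy]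

theorem Hom.pow' (h : Hom w) (m : ℕ) : Hom (fun y => w y ^ m) := fun y hy => by
  have h1 : pb rad (fun y => w y ^ m) y = pb rad w y ^ m := map_pow _ _ _
  rw [h1, h y hy]

theorem Hom.extd' (h : Hom w) (hw : ContDiffOn ℝ ∞ w {0}ᶜ) : Hom (extd w) := fun y hy => by
  have hr := rad_ne hy
  have h1 : ContDiffAt ℝ ∞ w (rad y) := hw.contDiffAt (isOpen_compl_singleton.mem_nhds hr)
  rw [← extd_pb ((contDiffAt_rad hy).of_le (by norm_cast)) (h1.differentiableAt (by simp))]
  refine extd_congr ?_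
  filter_upwards [ev_ne hy] with z hz using h z hz

/-- small cones around a direction -/
theorem exists_cone {O : Set W} (hO : IsOpen O) (hs : ∀ y ∈ O, ∀ t : ℝ, 0 < t → t • y ∈ O)
    {a : W} (ha : ‖a‖ = 1) (haO : a ∈ O) :
    ∃ c : ℝ, 0 ≤ c ∧ c < 1 ∧ ∀ y, c * ‖y‖ < inner ℝ a y → y ∈ O := by
  obtain ⟨ε, hε, hball⟩ := Metric.isOpen_iff.1 hO a haO
  refine ⟨max 0 (1 - ε ^ 2 / 2), le_max_left _ _, max_lt one_pos (by nlinarith), fun y hy => ?_⟩
  have hy0 : y ≠ 0 := fun h0 => by
    rw [h0, norm_zero, mul_zero, inner_zero_right] at hy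
    exact lt_irrefl _ hy
  have hn : 0 < ‖y‖ := norm_pos_iff.2 hy0
  have h1 : (1 - ε ^ 2 / 2) * ‖y‖ < inner ℝ a y :=
    (mul_le_mul_of_nonneg_right (le_max_right _ _) hn.le).trans_lt hy
  have h2 : rad y ∈ O := by
    refine hball ?_
    rw [mem_ball_iff_norm]
    have h3 : ‖rad y - a‖ ^ 2 = 2 - 2 * (‖y‖⁻¹ * inner ℝ a y) := by
      rw [norm_sub_sq_real, norm_rad hy0, ha, rad, inner_smul_left, real_inner_comm]
      simp only [conj_trivial]
      ring
    have h4 : 1 - ε ^ 2 / 2 < ‖y‖⁻¹ * inner ℝ a y := by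
      rw [← div_eq_inv_mul, lt_div_iff₀ hn]
      exact h1
    have h5 : ‖rad y - a‖ ^ 2 < ε ^ 2 := by rw [h3]; linarith
    exact lt_of_pow_lt_pow_left₀ 2 hε.le h5
  have h3 := hs _ h2 ‖y‖ hn
  rwa [rad, smul_smul, mul_inv_cancel₀ hn.ne', one_smul] at h3

end HomForms

section D1

variable {W : Type} [NormedAddCommGroup W] [InnerProductSpace ℝ W] [FiniteDimensional ℝ W]
  [MeasurableSpace W] [BorelSpace W] {n : ℕ} (b : OrthonormalBasis (Fin (2 * n + 2)) ℝ W)

include b in
/-- **(D1)**: closed scale invariant forms of degree `dim - 1` with the same integral differ by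
the differential of a scale invariant form -/
theorem exists_prim_hom {om om' : W → Lam W} (h1 : ContDiffOn ℝ ∞ om {0}ᶜ)
    (h1' : ContDiffOn ℝ ∞ om' {0}ᶜ) (hH : Hom om) (hH' : Hom om')
    (hd : ∀ y ≠ 0, Q.IsDeg (2 * n + 1) (om y)) (hd' : ∀ y ≠ 0, Q.IsDeg (2 * n + 1) (om' y))
    (hc : ∀ y ≠ 0, extd om y = 0) (hc' : ∀ y ≠ 0, extd om' y = 0)
    (hint : ∫ y, evalForm (dR rst y * om y) b = ∫ y, evalForm (dR rst y * om' y) b) :
    ∃ ν : W → Lam W, ContDiffOn ℝ ∞ ν {0}ᶜ ∧ Hom ν ∧ (∀ y ≠ 0, Q.IsDeg (2 * n) (ν y)) ∧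
      ∀ y ≠ 0, extd ν y = om y - om' y := by
  -- a form with integral one
  have : Nontrivial W := by
    refine nontrivial_of_finrank_pos (R := ℝ) ?_
    rw [finrank_eq_card_basis b.toBasis, Fintype.card_fin]
    omega
  obtain ⟨a, ha⟩ := exists_norm_eq W zero_le_one
  obtain ⟨w, w1, w2, w3, w4, -, w6⟩ := exists_bump b ha (c := 0) one_pos
  have hsm : ContDiffOn ℝ ∞ (fun y => om y - om' y) {x | x ≠ 0} := h1.sub h1'
  have hdif : ∀ {o : W → Lam W}, ContDiffOn ℝ ∞ o {0}ᶜ → ∀ y ≠ 0, DifferentiableAt ℝ o y :=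
    fun ho y hy => (ho.contDiffAt (isOpen_compl_singleton.mem_nhds hy)).differentiableAt (by simp)
  obtain ⟨ζ, z1, z2, z3⟩ := exists_top_prim b (j := 2 * n) rfl
    (σ := fun y => om y - om' y) (ω' := w) hsm
    (fun y hy => by rw [extd_sub (hdif h1 y hy) (hdif h1' y hy), hc y hy, hc' y hy, sub_zero])
    (fun y hy => (hd y hy).sub (hd' y hy)) w1 w3 (fun x hx => w2 x) (cut_rst (E := W)) w6
  have h0 : ∫ y, evalForm (dR rst y * (om y - om' y)) b = 0 := by
    have e1 : ∀ {o : W → Lam W}, ContDiffOn ℝ ∞ o {0}ᶜ →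
        Integrable (fun y => evalForm (dR rst y * o y) b) := fun {o} ho => by
      have ho' : ContDiffOn ℝ ∞ o {x | x ≠ 0} := ho
      have e2 := integrable_dR b (ofOn isOpen_ne o ho') (cut_rst (E := W))
      refine e2.congr ?_
      have h4 : ∀ᵐ y : W, y ≠ 0 := by
        have : (volume : Measure W) {(0 : W)} = 0 := measure_singleton _
        filter_upwards [compl_mem_ae_iff.2 this] with y hy using hy
      filter_upwards [h4] with y hy
      rw [ofOn_val_id isOpen_ne o ho' hy]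
    have e3 : ∀ y, evalForm (dR rst y * (om y - om' y)) b =
        evalForm (dR rst y * om y) b - evalForm (dR rst y * om' y) b := fun y => by
      rw [mul_sub]
      exact map_sub (evalL (b : Fin (2 * n + 2) → W)) _ _
    simp only [e3]
    rw [integral_sub (e1 h1) (e1 h1'), hint, sub_self]
  have hz1 : ContDiffOn ℝ ∞ ζ {0}ᶜ := z1
  refine ⟨pb rad ζ, fun y hy => ?_, hom_pb_rad ζ, fun y hy => (z2 _ (rad_ne hy)).pull _,
    fun y hy => ?_⟩
  · exact (contDiffAt_pb (m := ∞) (n := ∞) (contDiffAt_rad hy)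
      (hz1.contDiffAt (isOpen_compl_singleton.mem_nhds (rad_ne hy)))
      (by simp)).contDiffWithinAt
  · have hr := rad_ne hy
    rw [extd_pb ((contDiffAt_rad hy).of_le (by norm_cast)) (hdif hz1 _ hr)]
    have h5 : extd ζ (rad y) = om (rad y) - om' (rad y) := by
      have := z3 _ hr
      rw [h0, zero_smul, zero_add] at this
      exact this.symm
    have h6 : pb rad (extd ζ) y = pb rad om y - pb rad om' y := by
      rw [pb, h5, map_sub]
      rfl
    rw [h6, hH y hy, hH' y hy]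

end D1

/-! ### the standard connection form is scale invariant -/

variable (n : ℕ)

theorem lamv_self (y : WW n) : lamv n y y = 0 := by
  rw [lamv_apply]
  exact Finset.sum_eq_zero fun j _ => by ring

theorem lamv_smul (c : ℝ) (y : WW n) : lamv n (c • y) = c • lamv n y := by
  refine ContinuousLinearMap.ext fun z => ?_
  rw [smul_apply, lamv_apply, lamv_apply, smul_eq_mul, Finset.mul_sum]
  refine Finset.sum_congr rfl fun j _ => ?_
  rw [map_smul, map_smul, smul_eq_mul, smul_eq_mul]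
  ring

theorem hom_bw : Hom (bw n) := fun y hy => by
  have hn : ‖y‖ ≠ 0 := norm_ne_zero_iff.2 hy
  have h1 : nsq (xw n) (yw n) (rad y) = 1 := by rw [nsq_eq, norm_rad hy, one_pow]
  have h2 : DifferentiableAt ℝ (fun z : WW n => ‖z‖⁻¹) y :=
    ((contDiffAt_norm ℝ hy).differentiableAt (n := ∞) (by simp)).inv hn
  have h3 : HasFDerivAt (rad : WW n → WW n) (‖y‖⁻¹ • ContinuousLinearMap.id ℝ (WW n) +
      (fderiv ℝ (fun z : WW n => ‖z‖⁻¹) y).smulRight y) y :=
    h2.hasFDerivAt.smul (hasFDerivAt_id y)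
  rw [pb, bw, beta0, beta0, h1, inv_one, one_smul, lam0_eq, lam0_eq, pull_dx, h3.fderiv,
    ← map_smul]
  congr 1
  refine ContinuousLinearMap.ext fun z => ?_
  rw [rad, lamv_smul, nsq_eq]
  change ‖y‖⁻¹ * lamv n y (‖y‖⁻¹ • z + (fderiv ℝ (fun z : WW n => ‖z‖⁻¹) y z) • y) =
    (‖y‖ ^ 2)⁻¹ * lamv n y z
  rw [map_add, map_smul, map_smul, lamv_self, smul_zero, add_zero, smul_eq_mul]
  field_simp

theorem contDiffOn_bw' : ContDiffOn ℝ ∞ (bw n) {0}ᶜ := fun x hx =>
  ((conn_bw n).smooth x hx).contDiffWithinAt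

/-- the connection form of period `T` -/
noncomputable def conn (T : ℝ) (x : WW n) : Lam (WW n) := (T / (2 * Real.pi)) • bw n x

variable (T : ℝ)

theorem contDiffOn_conn : ContDiffOn ℝ ∞ (conn n T) {0}ᶜ := (contDiffOn_bw' n).const_smul _

theorem hom_conn : Hom (conn n T) := Hom.smul' (hom_bw n) _

theorem isDeg_conn (y : WW n) : Q.IsDeg 1 (conn n T y) := (isDeg_bw n y).smul _

theorem extd_conn {y : WW n} (hy : y ≠ 0) :
    extd (conn n T) y = (T / (2 * Real.pi)) • extd (bw n) y :=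
  extd_const_smul _ ((conn_bw n).diff hy)

theorem hom_extd_conn : Hom (extd (conn n T)) := Hom.extd' (hom_conn n T) (contDiffOn_conn n T)

/-- the connection form under the rotation `(x, t) ↦ e^{2 π i t / T} x` -/
theorem pb_conn (hT : T ≠ 0) {x : WW n} (hx : x ≠ 0) (t : ℝ) :
    pb (RW n (2 * Real.pi / T)) (conn n T) (x, t) =
      Fm.pull (ContinuousLinearMap.fst ℝ (WW n) ℝ) (conn n T x) +
        dx (ContinuousLinearMap.snd ℝ (WW n) ℝ) := by
  have h1 : pb (RW n (2 * Real.pi / T)) (conn n T) (x, t) =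
      (T / (2 * Real.pi)) • pb (RW n (2 * Real.pi / T)) (bw n) (x, t) := map_smul _ _ _
  rw [h1, pb_RW n _ hx t, smul_add, smul_smul, conn, map_smul]
  have := Real.pi_ne_zero
  have h2 : T / (2 * Real.pi) * (2 * Real.pi / T) = 1 := by field_simp
  rw [h2, one_smul]

/-- the form `β (dβ)^m` -/
theorem conn_pow_eq (m : ℕ) {y : WW n} (hy : y ≠ 0) : conn n T y * extd (conn n T) y ^ m =
    (T / (2 * Real.pi)) ^ (m + 1) • om (bw n) m y := by
  rw [extd_conn n T hy, conn, smul_pow, smul_mul_smul_comm, ← pow_succ', om]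

theorem isDeg_conn_pow (m : ℕ) {y : WW n} (hy : y ≠ 0) :
    Q.IsDeg (2 * m + 1) (conn n T y * extd (conn n T) y ^ m) := by
  rw [conn_pow_eq n T m hy]
  exact (isDeg_om_bw n m hy).smul _

theorem hom_conn_pow (m : ℕ) : Hom (fun y => conn n T y * extd (conn n T) y ^ m) :=
  Hom.mul' (hom_conn n T) (Hom.pow' (hom_extd_conn n T) m)

theorem contDiffOn_conn_pow (m : ℕ) :
    ContDiffOn ℝ ∞ (fun y => conn n T y * extd (conn n T) y ^ m) {0}ᶜ := fun y hy => by
  have h1 : ContDiffAt ℝ ∞ (conn n T) y :=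
    (contDiffOn_conn n T).contDiffAt (isOpen_compl_singleton.mem_nhds hy)
  exact (h1.mul ((contDiffAt_extd (n := ∞) h1 (by simp)).pow m)).contDiffWithinAt

/-- closedness in top degree -/
theorem extd_conn_pow (m : ℕ) {y : WW (m + 1)} (hy : y ≠ 0) :
    extd (fun y => conn (m + 1) T y * extd (conn (m + 1) T) y ^ m) y = 0 := by
  have h1 : (fun y => conn (m + 1) T y * extd (conn (m + 1) T) y ^ m) =ᶠ[𝓝 y]
      fun y => (T / (2 * Real.pi)) ^ (m + 1) • om (bw (m + 1)) m y := by
    filter_upwards [ev_ne hy] with z hz using conn_pow_eq (m + 1) T m hz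
  rw [extd_congr h1, extd_const_smul _ (((conn_bw (m + 1)).smooth_om m hy).differentiableAt
    (by simp)), extd_om_bw m hy, smul_zero]

/-- **the value** -/
theorem integral_conn_pow (m : ℕ) {r : WW (m + 1) → ℝ} {K : Set (WW (m + 1))} (hr : Cut r K) :
    ∫ y, evalForm (dR r y * (conn (m + 1) T y * extd (conn (m + 1) T) y ^ m)) (bW (m + 1)) =
      T ^ (m + 1) := by
  have h1 : ∀ᵐ y : WW (m + 1), evalForm (dR r y * (conn (m + 1) T y *
      extd (conn (m + 1) T) y ^ m)) (bW (m + 1)) =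
      (T / (2 * Real.pi)) ^ (m + 1) * evalForm (dR r y * om (bw (m + 1)) m y) (bW (m + 1)) := by
    have : (volume : Measure (WW (m + 1))) {(0 : WW (m + 1))} = 0 := measure_singleton _
    filter_upwards [compl_mem_ae_iff.2 this] with y hy
    rw [conn_pow_eq (m + 1) T m hy, mul_smul_comm, Q.evalForm_smul]
  rw [integral_congr_ae h1, integral_const_mul, integral_om_bw m hr, ← mul_pow]
  congr 1
  have := Real.pi_ne_zero
  field_simp

end Vale.Agent.P231.S3E
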