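import Vale.Agent.P231.A3.Sq
import Vale.Agent.P231.S3E479.Rot

/-!
# P231, stage 3, block (E), 6: the standard connection form under an equivariant map; the integral
of `ν (dν)^m` does not depend on the connection form `ν`
-/

set_option linter.unusedSectionVars false
set_option linter.unusedVariables false

open Module MeasureTheory Set Filter
open scoped ContDiff Topology

namespace Vale.Agent.P231.S3E

open Vale.Agent.P231.Fm Vale.Agent.P231.S2I Vale.Agent.P231.W Vale.Agent.P231.H584
open Vale.Agent.P231.Q (dR Cut)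
open Vale.Agent.P231.EN (om Conn)
open Vale.Agent.P231.EN.Std (beta0 lam0 nsq Lc xc yc)

section Abs

variable {X : Type*} {D : Dif X} {T : ℝ} {R : X × ℝ → X} (h : IsFlow D T R)

/-- **the integral of `ν (dν)^m` does not depend on the connection form** -/
theorem conn_pow_indep (hT : T ≠ 0) {ν ν' : Form D} (hν : Form.pull R h.map ν = pr ν + dt)
    (hν' : Form.pull R h.map ν' = pr ν' + dt) (hνo : ν.sg = -ν) (hνo' : ν'.sg = -ν')
    (I : Form D →ₗ[ℝ] ℝ) (hId : ∀ w : Form D, I w.d = 0)
    (hIb : ∀ w : Form D, Basic R h.map w → I w = 0) (m : ℕ) :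
    I (ν * ν.d ^ m) = I (ν' * ν'.d ^ m) := by
  have hδ : Basic R h.map (ν' - ν) := by
    rw [basic_def, H584.pr_sub]
    refine (map_sub (Form.pullA R h.map) ν' ν).trans ?_
    change Form.pull R h.map ν' - Form.pull R h.map ν = _
    rw [hν, hν']
    abel
  have hdc : ∀ {β : Form D}, Form.pull R h.map β = pr β + dt → Basic R h.map β.d :=
    fun {β} hβ => by
      rw [basic_def, Form.pull_d, hβ, Form.d_add, dt_d, add_zero, pr_d]
  have h1 : ν' * ν'.d ^ m = ν * ν.d ^ m + (ν' - ν) * ν'.d ^ m + ν * (ν'.d ^ m - ν.d ^ m) := by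
    noncomm_ring
  have h2 : I ((ν' - ν) * ν'.d ^ m) = 0 := hIb _ (Basic.mul hδ (Basic.pow (hdc hν') m))
  have h3 : I (ν * (ν'.d ^ m - ν.d ^ m)) = 0 := by
    rcases m with _ | k
    · simp
    · rw [← sub_mul_hh (even_comm (d_even hνo') ν.d) k, ← Form.d_sub]
      exact A3.int_conn_d h hT hν hνo I hId hIb (Basic.hh (hdc hν') (hdc hν) k)
        (hh_closed (Form.d_d _) (Form.d_d _) k) hδ
  rw [h1, map_add, map_add, h2, h3, add_zero, add_zero]

end Abs

variable (n : ℕ)

theorem contDiffOn_bw : ContDiffOn ℝ ∞ (bw n) {x | x ≠ 0} := fun x hx =>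
  ((conn_bw n).smooth x hx).contDiffWithinAt

/-- the standard connection form as a form on the punctured space -/
noncomputable def bF : Form (dP (WW n)) := ofOn isOpen_ne (bw n) (contDiffOn_bw n)

theorem bF_val {E : Type} [NormedAddCommGroup E] [NormedSpace ℝ E] [FiniteDimensional ℝ E]
    {u : E → WW n} {x : E} (h : (dP (WW n)).At u x) : (bF n).val u x = pb u (bw n) x :=
  ofOn_val isOpen_ne _ _ h

theorem bF_val_id {x : WW n} (hx : x ≠ 0) : (bF n).val id x = bw n x :=
  ofOn_val_id isOpen_ne _ _ hx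

theorem bF_odd : (bF n).sg = -bF n := ext_id isOpen_ne fun x hx => by
  rw [Form.sg_val, Form.neg_val, bF_val_id n hx]
  exact (conn_bw n).odd x hx

/-- the value of `β (dβ)^m` -/
theorem bF_pow_val (m : ℕ) {x : WW n} (hx : x ≠ 0) :
    (bF n * (bF n).d ^ m).val id x = om (bw n) m x := by
  have h1 : (bF n).d.val id x = extd (bw n) x := by
    rw [Form.d_val _ (at_id hx)]
    refine extd_congr ?_
    filter_upwards [isOpen_ne.mem_nhds hx] with y hy using bF_val_id n hy
  have h2 : ∀ k : ℕ, ((bF n).d ^ k).val id x = extd (bw n) x ^ k := by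
    intro k
    induction k with
    | zero => rw [pow_zero, pow_zero, Form.one_val (at_id hx)]
    | succ k ih => rw [pow_succ, pow_succ, Form.mul_val, ih, h1]
  rw [Form.mul_val, h2, bF_val_id n hx, om]

variable {X : Type*} {D : Dif X} {T : ℝ} {R : X × ℝ → X} {n}

theorem map_on {H : X → WW n} (hH : D.Map (Dif.lin (WW n)) H) (hne : ∀ v, H v ≠ 0) :
    D.Map (dP (WW n)) H := fun h => ⟨hH h, Eventually.of_forall fun y => hne _⟩

/-- the standard connection form pulled back by an equivariant map -/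
theorem pull_flow_bF (hR : (D.prod (Dif.lin ℝ)).Map D R) {H : X → WW n}
    (hH : D.Map (Dif.lin (WW n)) H) (hne : ∀ v, H v ≠ 0) {c : ℝ}
    (heq : ∀ v t, H (R (v, t)) = RW n c (H v, t)) :
    Form.pull R hR (Form.pull H (map_on hH hne) (bF n)) =
      pr (Form.pull H (map_on hH hne) (bF n)) + c • dt := by
  refine Form.ext_val fun E _ _ _ u x hu => ?_
  have hu1 : D.At (fun y => (u y).1) x := hu.1
  have hu2 : Sm (fun y => (u y).2) x := hu.2
  have hRu : D.At (R ∘ u) x := hR hu
  have hg1 : Sm (fun y => H (u y).1) x := hH hu1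
  have hg : Sm (fun y => (H (u y).1, (u y).2)) x := hg1.prodMk hu2
  set g : E → WW n × ℝ := fun y => (H (u y).1, (u y).2) with hgdef
  have hgx : (g x).1 ≠ 0 := hne _
  have e1 : H ∘ (R ∘ u) = fun y => RW n c (g y) := by
    funext y
    exact heq (u y).1 (u y).2
  have hd1 : DifferentiableAt ℝ g x := hg.differentiableAt
  have e2 : (Form.pull R hR (Form.pull H (map_on hH hne) (bF n))).val u x =
      Fm.pull (fderiv ℝ g x) (pb (RW n c) (bw n) (g x)) := by
    have h1 : DifferentiableAt ℝ (RW n c) (g x) := (contDiff_RW n c).differentiable (by simp) _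
    rw [Form.pull_val hR _ hu, Form.pull_val (map_on hH hne) _ hRu,
      bF_val n (map_on hH hne hRu), e1, pb_comp (f := g) (g := RW n c) (bw n) h1 hd1]
    rfl
  have e3 : (pr (Form.pull H (map_on hH hne) (bF n))).val u x =
      Fm.pull (fderiv ℝ g x) (Fm.pull (ContinuousLinearMap.fst ℝ (WW n) ℝ) (bw n (g x).1)) := by
    have h1 : (pr (Form.pull H (map_on hH hne) (bF n))).val u x =
        (Form.pull H (map_on hH hne) (bF n)).val (fun y => (u y).1) x :=
      Form.pull_val (f := (Prod.fst : X × ℝ → X)) (Dif.map_fst (D := D) (D' := Dif.lin ℝ)) _ hu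
    rw [h1, Form.pull_val (map_on hH hne) _ hu1, bF_val n (map_on hH hne hu1),
      ← pull_comp_apply]
    have h2 : fderiv ℝ (H ∘ fun y => (u y).1) x =
        (ContinuousLinearMap.fst ℝ (WW n) ℝ) ∘L fderiv ℝ g x := by
      have h3 := (ContinuousLinearMap.fst ℝ (WW n) ℝ).hasFDerivAt.comp x hd1.hasFDerivAt
      exact h3.fderiv
    rw [pb, h2]
    rfl
  have e4 : (dt : Form (D.prod (Dif.lin ℝ))).val u x =
      Fm.pull (fderiv ℝ g x) (dx (ContinuousLinearMap.snd ℝ (WW n) ℝ)) := by
    rw [WA.dt_val hu, pull_dx]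
    congr 1
    have h3 := (ContinuousLinearMap.snd ℝ (WW n) ℝ).hasFDerivAt.comp x hd1.hasFDerivAt
    exact h3.fderiv
  have e5 : pb (RW n c) (bw n) (g x) = Fm.pull (ContinuousLinearMap.fst ℝ (WW n) ℝ)
      (bw n (g x).1) + c • dx (ContinuousLinearMap.snd ℝ (WW n) ℝ) := pb_RW n c hgx (g x).2
  rw [Form.add_val, Form.smul_val, e2, e3, e4, e5, map_add, map_smul]

end Vale.Agent.P231.S3E
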