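import Vale.Agent.P231.S3E479.Bump
import Vale.Agent.P231.TW.DegMap

/-!
# P231, stage 3, block (E), 2: integrality of the degree of a homogeneous map

`P : V × F → W` homogeneous in the second variable, `B` a relatively compact open subset of `V`
with null boundary, `dim V + dim F = dim W`.
-/

set_option linter.unusedSectionVars false
set_option linter.unusedVariables false

open Module MeasureTheory Set Metric Filter
open scoped ContDiff Topology

namespace Vale.Agent.P231.S3E

open Vale.Agent.P231.Fm Vale.Agent.P231.FE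
open Vale.Agent.P231.Q (dR Cut)
open Vale.Agent.P231.TW (Hom pB)

variable {V : Type*} [NormedAddCommGroup V] [NormedSpace ℝ V] [FiniteDimensional ℝ V]
  [MeasurableSpace V] [BorelSpace V]
variable {F : Type*} [NormedAddCommGroup F] [InnerProductSpace ℝ F] [FiniteDimensional ℝ F]
  [MeasurableSpace F] [BorelSpace F]
variable {W : Type*} [NormedAddCommGroup W] [InnerProductSpace ℝ W] [FiniteDimensional ℝ W]
  [MeasurableSpace W] [BorelSpace W] {n : ℕ} (b : OrthonormalBasis (Fin (2 * n + 2)) ℝ W)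

/-- the hypotheses on the map -/
structure HMap (B O : Set V) (P : V × F → W) : Prop where
  opn : IsOpen O
  sub : closure B ⊆ O
  smooth : ContDiffOn ℝ ∞ P (O ×ˢ {0}ᶜ)
  ne : ∀ x ∈ O, ∀ z ≠ 0, P (x, z) ≠ 0
  hom : ∀ x ∈ O, ∀ z ≠ 0, ∀ c : ℝ, 0 < c → rad (P (x, c • z)) = rad (P (x, z))

variable {B O : Set V} {P : V × F → W}

/-- the normalised map -/
noncomputable def nP (P : V × F → W) (z : V × F) : W := ‖z.2‖ • rad (P z)

theorem HMap.at (h : HMap B O P) {z : V × F} (h1 : z.1 ∈ O) (h2 : z.2 ≠ 0) :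
    ContDiffAt ℝ ∞ P z :=
  h.smooth.contDiffAt ((h.opn.prod isOpen_compl_singleton).mem_nhds ⟨h1, h2⟩)

theorem HMap.ne' (h : HMap B O P) {z : V × F} (h1 : z.1 ∈ O) (h2 : z.2 ≠ 0) : P z ≠ 0 :=
  h.ne z.1 h1 z.2 h2

theorem HMap.at_rad (h : HMap B O P) {z : V × F} (h1 : z.1 ∈ O) (h2 : z.2 ≠ 0) :
    ContDiffAt ℝ ∞ (fun z => rad (P z)) z :=
  (contDiffAt_rad (h.ne' h1 h2)).comp z (h.at h1 h2)

theorem HMap.at_nP (h : HMap B O P) {z : V × F} (h1 : z.1 ∈ O) (h2 : z.2 ≠ 0) :
    ContDiffAt ℝ ∞ (nP P) z :=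
  ((contDiffAt_norm ℝ h2).comp z contDiffAt_snd).smul (h.at_rad h1 h2)

theorem HMap.norm_nP (h : HMap B O P) {z : V × F} (h1 : z.1 ∈ O) (h2 : z.2 ≠ 0) :
    ‖nP P z‖ = ‖z.2‖ := by
  rw [nP, norm_smul, norm_rad (h.ne' h1 h2), mul_one, norm_norm]

theorem HMap.rad_nP (h : HMap B O P) {z : V × F} (h1 : z.1 ∈ O) (h2 : z.2 ≠ 0) :
    rad (nP P z) = rad (P z) := by
  rw [nP, rad_smul _ (norm_pos_iff.2 h2), rad, norm_rad (h.ne' h1 h2), inv_one, one_smul]

theorem HMap.nP_smul (h : HMap B O P) {x : V} (h1 : x ∈ O) {z : F} (h2 : z ≠ 0) {c : ℝ}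
    (hc : 0 < c) : nP P (x, c • z) = c • nP P (x, z) := by
  rw [nP, nP]
  simp only
  rw [h.hom x h1 z h2 c hc, norm_smul, Real.norm_of_nonneg hc.le, smul_smul]

/-- the pull-back by the normalised map -/
theorem HMap.pb_nP (h : HMap B O P) {om : W → Lam W} (hom : Hom om) {z : V × F} (h1 : z.1 ∈ O)
    (h2 : z.2 ≠ 0) :
    pb (nP P) (fun y => dR rst y * om y) z = Q.cw rst (pb P om) z := by
  have hd := (h.at_nP h1 h2).differentiableAt (by simp)
  have h3 : pb (nP P) (fun y => dR rst y * om y) z = pb (nP P) (dR rst) z * pb (nP P) om z :=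
    map_mul _ _ _
  have hev : ∀ᶠ y : V × F in 𝓝 z, y.1 ∈ O ∧ y.2 ≠ 0 := by
    filter_upwards [(h.opn.prod isOpen_compl_singleton).mem_nhds (x := z) ⟨h1, h2⟩] with y hy
    exact ⟨hy.1, hy.2⟩
  have h4 : pb (nP P) (dR rst) z = Q.ps (dR rst z.2) := by
    have h5 : (fun y => (rst : W → ℝ) (nP P y)) =ᶠ[𝓝 z] fun y : V × F => rst y.2 := by
      filter_upwards [hev] with y hy
      simp only [rst]
      rw [h.norm_nP hy.1 hy.2]
    have h6 : pb (nP P) (dR rst) z = dx (fderiv ℝ (fun w => (rst : W → ℝ) (nP P w)) z) := by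
      rw [pb, dR, pull_dx]
      congr 1
      exact (fderiv_comp z (contDiff_rst.differentiable (by simp) _) hd).symm
    rw [h6, h5.fderiv_eq, Q.ps, dR, pull_dx]
    congr 1
    exact (HasFDerivAt.comp z (contDiff_rst.differentiable (by simp) z.2).hasFDerivAt
      hasFDerivAt_snd).fderiv
  have h6 : pb (nP P) om z = pb P om z :=
    hom.pb_smul hd ((h.at h1 h2).differentiableAt (by simp))
      (by rw [← norm_ne_zero_iff, h.norm_nP h1 h2]; exact norm_ne_zero_iff.2 h2)
      (hev.mono fun y hy => h.rad_nP hy.1 hy.2) (h.ne' h1 h2)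
  rw [h3, h4, h6, Q.cw]

/-- a convex open cone -/
theorem convex_cone (a : W) {c : ℝ} (hc : 0 ≤ c) : Convex ℝ {y : W | c * ‖y‖ < inner ℝ a y} := by
  intro y hy z hz s t hs ht hst
  simp only [mem_ofPred_eq] at *
  have h1 : ‖s • y + t • z‖ ≤ s * ‖y‖ + t * ‖z‖ := by
    refine (norm_add_le _ _).trans ?_
    rw [norm_smul, norm_smul, Real.norm_of_nonneg hs, Real.norm_of_nonneg ht]
  rw [inner_add_right, inner_smul_right, inner_smul_right]
  have h2 : c * ‖s • y + t • z‖ ≤ s * (c * ‖y‖) + t * (c * ‖z‖) := by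
    calc c * ‖s • y + t • z‖ ≤ c * (s * ‖y‖ + t * ‖z‖) := by gcongr
      _ = _ := by ring
  rcases hs.eq_or_lt with rfl | hs'
  · have ht1 : t = 1 := by linarith
    subst ht1
    simp only [zero_mul, zero_add, one_mul] at *
    linarith
  · nlinarith [mul_lt_mul_of_pos_left hy hs', mul_le_mul_of_nonneg_left hz.le ht]

theorem isOpen_cone (a : W) (c : ℝ) : IsOpen {y : W | c * ‖y‖ < inner ℝ a y} :=
  isOpen_lt (by fun_prop) (by fun_prop)

variable {k l : ℕ}

/-- an exceptional direction -/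
theorem HMap.exists_dir (h : HMap B O P) (hn : finrank ℝ W = 2 * n + 2)
    (bV : Basis (Fin k) ℝ V) (bF : Basis (Fin l) ℝ F)
    (hd : l + k = 2 * n + 2) (hBc : IsCompact (closure B)) (hB0 : bV.addHaar (frontier B) = 0) :
    ∃ a : W, ‖a‖ = 1 ∧ ∃ c : ℝ, 0 ≤ c ∧ c < 1 ∧ ∀ x ∈ frontier B, ∀ z ≠ 0,
      inner ℝ a (nP P (x, z)) ≤ c * ‖nP P (x, z)‖ := by
  have hZ : finrank ℝ (V × F) = 2 * n + 2 := by
    rw [finrank_eq_card_basis (pB bV bF), Fintype.card_fin, hd]
  have hfs : frontier B ⊆ O := frontier_subset_closure.trans h.sub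
  let L : W ≃L[ℝ] V × F := ContinuousLinearEquiv.ofFinrankEq (by rw [hn, hZ])
  let μ : Measure W := volume
  -- the null set
  have h1 : μ (L ⁻¹' (frontier B ×ˢ univ)) = 0 := by
    have h2 : (μ.map L).IsAddHaarMeasure := L.isAddHaarMeasure_map μ
    have h3 : (μ.map L) (frontier B ×ˢ univ) = 0 := by
      have h4 : (bV.addHaar.prod bF.addHaar) (frontier B ×ˢ (univ : Set F)) = 0 := by
        rw [Measure.prod_prod, hB0, zero_mul]
      exact (Measure.absolutelyContinuous_isAddHaarMeasure (μ.map L)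
        (bV.addHaar.prod bF.addHaar)) h4
    have h5 : MeasurableEmbedding (L : W → V × F) := L.toHomeomorph.measurableEmbedding
    rwa [h5.map_apply] at h3
  let s : Set W := L ⁻¹' (frontier B ×ˢ {0}ᶜ)
  have h2 : μ s = 0 := measure_mono_null (preimage_mono (prod_mono_right (subset_univ _))) h1
  have h3 : μ ((fun w => nP P (L w)) '' s) = 0 := by
    refine addHaar_image_eq_zero_of_differentiableOn_of_addHaar_eq_zero μ (fun w hw => ?_) h2
    exact (((h.at_nP (hfs hw.1) hw.2).comp w L.contDiff.contDiffAt).differentiableAt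
      (by simp)).differentiableWithinAt
  have hnt : Nontrivial W := nontrivial_of_finrank_pos (R := ℝ) (by omega)
  obtain ⟨y₀, hy₀⟩ : ∃ y₀, y₀ ∉ ((fun w => nP P (L w)) '' s) ∪ {0} := by
    by_contra h
    push Not at h
    have h5 := measure_union_null h3 (measure_singleton (0 : W))
    rw [eq_univ_of_forall h] at h5
    exact (isOpen_univ.measure_pos μ univ_nonempty).ne' h5
  rw [mem_union, not_or, mem_singleton_iff] at hy₀
  obtain ⟨hy₁, hy0⟩ := hy₀
  have hy2 : 0 < ‖y₀‖ := norm_pos_iff.2 hy0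
  have ha : ‖rad y₀‖ = 1 := norm_rad hy0
  -- the compact set of boundary directions
  let Kd : Set W := (fun z : V × F => rad (P z)) '' (frontier B ×ˢ sphere 0 1)
  have hKc : IsCompact Kd := by
    refine IsCompact.image_of_continuousOn
      ((hBc.of_isClosed_subset isClosed_frontier frontier_subset_closure).prod
        (isCompact_sphere 0 1)) fun z hz => ?_
    exact (h.at_rad (hfs hz.1) (by
      rw [← norm_ne_zero_iff, mem_sphere_zero_iff_norm.1 hz.2]
      exact one_ne_zero)).continuousAt.continuousWithinAt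
  have hK1 : ∀ y ∈ Kd, ‖y‖ = 1 := by
    rintro _ ⟨z, hz, rfl⟩
    exact norm_rad (h.ne' (hfs hz.1) (by
      rw [← norm_ne_zero_iff, mem_sphere_zero_iff_norm.1 hz.2]
      exact one_ne_zero))
  have hKa : rad y₀ ∉ Kd := by
    rintro ⟨z, hz, hza⟩
    have hz1 : ‖z.2‖ = 1 := mem_sphere_zero_iff_norm.1 hz.2
    have hz2 : z.2 ≠ 0 := by
      rw [← norm_ne_zero_iff, hz1]
      exact one_ne_zero
    apply hy₁
    refine ⟨L.symm (z.1, ‖y₀‖ • z.2), ⟨?_, ?_⟩, ?_⟩
    · rw [L.apply_symm_apply]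
      exact hz.1
    · rw [L.apply_symm_apply]
      exact smul_ne_zero hy2.ne' hz2
    · simp only
      rw [L.apply_symm_apply, h.nP_smul (hfs hz.1) hz2 hy2, nP]
      simp only
      rw [hz1, one_smul]
      have h5 : rad (P (z.1, z.2)) = rad y₀ := hza
      rw [h5, rad, smul_smul, mul_inv_cancel₀ hy2.ne', one_smul]
  obtain ⟨c, hc0, hc1, hcK⟩ : ∃ c : ℝ, 0 ≤ c ∧ c < 1 ∧ ∀ y ∈ Kd, inner ℝ (rad y₀) y ≤ c := by
    rcases Kd.eq_empty_or_nonempty with he | hne
    · refine ⟨0, le_rfl, one_pos, fun y hy => ?_⟩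
      rw [he] at hy
      exact hy.elim
    · obtain ⟨y, hy, hmax⟩ := hKc.exists_isMaxOn (f := fun y => inner ℝ (rad y₀) y) hne
        (by fun_prop)
      have h6 : inner ℝ (rad y₀) y < 1 := by
        refine lt_of_le_of_ne ?_ fun h7 => ?_
        · have := real_inner_le_norm (rad y₀) y
          rwa [ha, hK1 y hy, mul_one] at this
        · have h8 : rad y₀ = y := (inner_eq_one_iff_of_norm_eq_one ha (hK1 y hy)).1 h7
          rw [← h8] at hy
          exact hKa hy
      refine ⟨max (inner ℝ (rad y₀) y) 0, le_max_right _ _, max_lt h6 one_pos, fun z hz => ?_⟩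
      exact (hmax hz).trans (le_max_left _ _)
  refine ⟨rad y₀, ha, c, hc0, hc1, fun x hx z hz => ?_⟩
  have hz' : 0 < ‖z‖ := norm_pos_iff.2 hz
  have h6 : rad (P (x, z)) ∈ Kd := by
    refine ⟨(x, ‖z‖⁻¹ • z), ⟨hx, ?_⟩, ?_⟩
    · rw [mem_sphere_zero_iff_norm, norm_smul, norm_inv, norm_norm, inv_mul_cancel₀ hz'.ne']
    · exact h.hom x (hfs hx) z hz _ (inv_pos.2 hz')
  have h7 := hcK _ h6
  rw [h.norm_nP (z := (x, z)) (hfs hx) hz, nP, inner_smul_right]
  simp only
  nlinarith

theorem evalForm_cast {X : Type*} [NormedAddCommGroup X] [NormedSpace ℝ X]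
    [FiniteDimensional ℝ X] {p q : ℕ} (h : p = q)
    (v : Fin q → X) (w : Lam X) : evalForm w (fun i : Fin p => v (Fin.cast h i)) = evalForm w v := by
  subst h
  rfl

theorem HMap.smooth_cw (h : HMap B O P) {om : W → Lam W} (hom : ContDiffOn ℝ ∞ om {0}ᶜ) :
    ContDiffOn ℝ ∞ (Q.cw rst (pb P om)) (O ×ˢ univ) :=
  Q.contDiffOn_cw cut_rst h.opn fun z hz => (contDiffAt_pb (h.at hz.1 hz.2)
    (hom.contDiffAt (isOpen_compl_singleton.mem_nhds (h.ne' hz.1 hz.2)))
    (by simp)).contDiffWithinAt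

/-- Fubini -/
theorem HMap.fubini (h : HMap B O P) (bV : Basis (Fin k) ℝ V) (bF : Basis (Fin l) ℝ F)
    (hBm : MeasurableSet B) (hBc : IsCompact (closure B)) {om : W → Lam W}
    (hom : ContDiffOn ℝ ∞ om {0}ᶜ) :
    ∫ x in B, evalForm (Q.phi bF.addHaar bF rst (pb P om) x) bV ∂bV.addHaar =
      ∫ z in B ×ˢ {0}ᶜ, evalForm (Q.cw rst (pb P om) z) (pB bV bF) ∂(pB bV bF).addHaar := by
  have hcw := h.smooth_cw hom
  have hc : ContinuousOn (fun z => evalForm (Q.cw rst (pb P om) z) (pB bV bF)) (O ×ˢ univ) :=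
    (evalL (pB bV bF)).continuous.comp_continuousOn hcw.continuousOn
  have hz0 : ∀ z : V × F, z.2 ∉ closedBall (0 : F) 3 →
      evalForm (Q.cw rst (pb P om) z) (pB bV bF) = 0 := by
    intro z hz
    have := Q.cw_out cut_rst (pb P om) z.1 hz
    change evalL (pB bV bF) (Q.cw rst (pb P om) (z.1, z.2)) = 0
    rw [this, map_zero]
  have hint : IntegrableOn (fun z => evalForm (Q.cw rst (pb P om) z) (pB bV bF)) (B ×ˢ univ)
      (bV.addHaar.prod bF.addHaar) := by
    have h1 : IntegrableOn (fun z => evalForm (Q.cw rst (pb P om) z) (pB bV bF))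
        (closure B ×ˢ closedBall (0 : F) 3) (bV.addHaar.prod bF.addHaar) :=
      (hc.mono (prod_mono h.sub (subset_univ _))).integrableOn_compact
        (hBc.prod (isCompact_closedBall 0 3))
    have h2 : IntegrableOn (fun z => evalForm (Q.cw rst (pb P om) z) (pB bV bF))
        (closure B ×ˢ univ) (bV.addHaar.prod bF.addHaar) := by
      refine h1.of_forall_sdiff_eq_zero (isClosed_closure.measurableSet.prod MeasurableSet.univ)
        fun z hz => hz0 z fun h3 => hz.2 ⟨hz.1.1, h3⟩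
    exact h2.mono_set (prod_mono_left subset_closure)
  have h3 : ∀ x ∈ B, evalForm (Q.phi bF.addHaar bF rst (pb P om) x) bV =
      ∫ y, evalForm (Q.cw rst (pb P om) (x, y)) (pB bV bF) ∂bF.addHaar := by
    intro x hx
    have hw : ContDiffOn ℝ ∞ (pb P om) (O ×ˢ {0}ᶜ) := fun z hz => (contDiffAt_pb (h.at hz.1 hz.2)
      (hom.contDiffAt (isOpen_compl_singleton.mem_nhds (h.ne' hz.1 hz.2)))
      (by simp)).contDiffWithinAt
    have h4 := ContinuousLinearMap.integral_comp_comm (evalL bV)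
      (Q.integrable_slice bF.addHaar bF cut_rst h.opn hw (h.sub (subset_closure hx)))
    refine Eq.trans h4.symm (integral_congr_ae (Eventually.of_forall fun y => ?_))
    exact (TW.evalForm_pB bV bF _).symm
  rw [setIntegral_congr_fun hBm h3, TW.addHaar_pB]
  have h5 : ∫ z in B ×ˢ {0}ᶜ, evalForm (Q.cw rst (pb P om) z) (pB bV bF)
      ∂(bV.addHaar.prod bF.addHaar) =
      ∫ z in B ×ˢ univ, evalForm (Q.cw rst (pb P om) z) (pB bV bF)
        ∂(bV.addHaar.prod bF.addHaar) := by
    refine (setIntegral_eq_of_subset_of_forall_sdiff_eq_zero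
      (hBm.prod MeasurableSet.univ) (prod_mono_right (subset_univ _)) fun z hz => ?_).symm
    have hz2 : z.2 = 0 := by
      by_contra h6
      exact hz.2 ⟨hz.1.1, h6⟩
    have h7 := (Q.cw_near cut_rst (pb P om) z.1).self_of_nhds
    change evalL (pB bV bF) (Q.cw rst (pb P om) (z.1, z.2)) = 0
    rw [hz2, h7, map_zero]
  rw [h5, setIntegral_prod _ hint]
  simp only [Measure.restrict_univ]

/-- **integrality of the degree of a homogeneous map** -/
theorem HMap.exists_int (h : HMap B O P) (bV : Basis (Fin k) ℝ V) (bF : Basis (Fin l) ℝ F)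
    (hd : l + k = 2 * n + 2) (hB : IsOpen B) (hBc : IsCompact (closure B))
    (hB0 : bV.addHaar (frontier B) = 0) :
    ∃ om : W → Lam W, ContDiffOn ℝ ∞ om {0}ᶜ ∧ (∀ y, Q.IsDeg (2 * n + 1) (om y)) ∧
      (∀ y ≠ 0, extd om y = 0) ∧ Hom om ∧ ∫ y, evalForm (dR rst y * om y) b = 1 ∧
      ∃ m : ℤ, ∫ x in B, evalForm (Q.phi bF.addHaar bF rst (pb P om) x) bV ∂bV.addHaar = m := by
  have hn : finrank ℝ W = 2 * n + 2 := by
    rw [finrank_eq_card_basis b.toBasis, Fintype.card_fin]
  obtain ⟨a, ha, c, hc0, hc1, hdir⟩ := h.exists_dir hn bV bF hd hBc hB0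
  obtain ⟨om, ho1, ho2, ho3, ho4, ho5, ho6⟩ := exists_bump b ha (c := (c + 1) / 2) (by linarith)
  refine ⟨om, ho1, ho2, ho3, ho4, ho6, ?_⟩
  set w : W → Lam W := fun y => dR rst y * om y with hw
  have hwc : ContDiff ℝ ∞ w := TW.contDiff_cutmul cut_rst ho1
  have hws : HasCompactSupport w := TW.compact_cutmul cut_rst om
  have hwV : tsupport w ⊆ {y : W | c * ‖y‖ < inner ℝ a y} := by
    have h1 : tsupport w ⊆ {y : W | 2 ≤ ‖y‖ ∧ (c + 1) / 2 * ‖y‖ ≤ inner ℝ a y} := by
      refine closure_minimal (fun y hy => ?_) ?_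
      · have h2 : 2 ≤ ‖y‖ := by
          by_contra h3
          refine hy ?_
          simp only [hw]
          rw [dR_rst_zero (not_le.1 h3), zero_mul]
        have h3 : y ≠ 0 := by
          rintro rfl
          rw [norm_zero] at h2
          linarith
        refine ⟨h2, ?_⟩
        by_contra h4
        refine hy ?_
        simp only [hw]
        rw [ho5 y h3 (not_le.1 h4).le, mul_zero]
      · exact (isClosed_le continuous_const continuous_norm).inter
          (isClosed_le (continuous_const.mul continuous_norm)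
            (continuous_const.inner continuous_id))
    refine h1.trans fun y hy => ?_
    obtain ⟨h2, h3⟩ := hy
    simp only [mem_ofPred_eq]
    nlinarith
  -- transport
  let bW : Basis (Fin (l + k)) ℝ W := b.toBasis.reindex (finCongr hd.symm)
  have hbW : ∀ i, bW i = b (Fin.cast hd i) := fun i => by
    rw [Basis.reindex_apply]
    rfl
  have hbW' : bW.addHaar = volume := by
    rw [Basis.addHaar_reindex]
    exact b.addHaar_eq_volume
  let bZ := pB bV bF
  let L : W ≃L[ℝ] V × F := (bW.equiv bZ (Equiv.refl _)).toContinuousLinearEquiv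
  have hL : bW.map L.toLinearEquiv = bZ := by
    refine Basis.eq_of_apply_eq fun i => ?_
    rw [Basis.map_apply]
    change (bW.equiv bZ (Equiv.refl _)) (bW i) = bZ i
    rw [Basis.equiv_apply]
    rfl
  have hLm : MeasurableEmbedding (L : W → V × F) := L.toHomeomorph.measurableEmbedding
  have hmap : (bW.addHaar).map L = bZ.addHaar := by
    rw [← hL]
    exact Basis.map_addHaar bW L
  set U : Set W := L ⁻¹' (B ×ˢ {0}ᶜ) with hU
  have hUo : IsOpen U := (hB.prod isOpen_compl_singleton).preimage L.continuous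
  have hBO : B ⊆ O := subset_closure.trans h.sub
  have hfs : frontier B ⊆ O := frontier_subset_closure.trans h.sub
  have hfat : ∀ x ∈ U, ContDiffAt ℝ ∞ (fun x => nP P (L x)) x := fun x hx =>
    (h.at_nP (hBO hx.1) hx.2).comp x L.contDiff.contDiffAt
  obtain ⟨m, hm⟩ := exists_int_degree_form bW.addHaar bW (U := U)
    (V := {y : W | c * ‖y‖ < inner ℝ a y}) hUo (isOpen_cone a c) (convex_cone a hc0)
    (f := fun x => nP P (L x)) (fun x hx => (hfat x hx).contDiffWithinAt) (fun K hKV hK => by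
      -- properness
      have h0K : (0 : W) ∉ K := fun h0 => by
        have := hKV h0
        simp only [mem_ofPred_eq, norm_zero, mul_zero, inner_zero_right, lt_irrefl] at this
      obtain ⟨r1, hr1, hr1K⟩ : ∃ r1 : ℝ, 0 < r1 ∧ ∀ y ∈ K, r1 ≤ ‖y‖ := by
        obtain ⟨δ, hδ, hδK⟩ := nhds_basis_ball.mem_iff.1 (hK.isClosed.isOpen_compl.mem_nhds h0K)
        refine ⟨δ, hδ, fun y hy => ?_⟩
        by_contra h5
        exact hδK (mem_ball_zero_iff.2 (not_le.1 h5)) hy
      obtain ⟨r2, hr2⟩ := hK.isBounded.subset_closedBall 0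
      have hset : {x | x ∈ U ∧ nP P (L x) ∈ K} = L.symm '' ((closure B ×ˢ
          (closedBall (0 : F) r2 \ ball 0 r1)) ∩ (nP P ⁻¹' K)) := by
        rw [ContinuousLinearEquiv.image_symm_eq_preimage]
        ext x
        constructor
        · rintro ⟨hx, hxK⟩
          have hn1 := h.norm_nP (hBO hx.1) hx.2
          refine ⟨⟨subset_closure hx.1, ?_, ?_⟩, hxK⟩
          · rw [mem_closedBall_zero_iff, ← hn1]
            exact mem_closedBall_zero_iff.1 (hr2 hxK)
          · rw [mem_ball_zero_iff, not_lt, ← hn1]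
            exact hr1K _ hxK
        · rintro ⟨⟨hx1, hx2, hx3⟩, hxK⟩
          rw [mem_ball_zero_iff, not_lt] at hx3
          have hz : (L x).2 ≠ 0 := by
            rw [← norm_pos_iff]
            linarith
          refine ⟨⟨?_, hz⟩, hxK⟩
          by_contra h6
          have h7 : (L x).1 ∈ frontier B := ⟨hx1, by rwa [hB.interior_eq]⟩
          have h8 := hdir _ h7 _ hz
          have h9 := hKV hxK
          simp only [mem_ofPred_eq] at h9
          exact absurd h9 (not_lt.2 h8)
      rw [hset]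
      refine IsCompact.image ?_ L.symm.continuous
      have hcc : IsCompact (closure B ×ˢ (closedBall (0 : F) r2 \ ball 0 r1)) :=
        hBc.prod ((isCompact_closedBall 0 r2).diff isOpen_ball)
      have hco : ContinuousOn (nP P) (closure B ×ˢ (closedBall (0 : F) r2 \ ball 0 r1)) := by
        intro z hz
        refine (h.at_nP (h.sub hz.1) ?_).continuousAt.continuousWithinAt
        have := hz.2.2
        rw [mem_ball_zero_iff, not_lt] at this
        rw [← norm_pos_iff]
        linarith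
      exact hco.preimage_isClosed_of_isClosed hcc.isClosed hK.isClosed |> fun h10 =>
        hcc.of_isClosed_subset h10 inter_subset_left)
  refine ⟨m, ?_⟩
  have h1 := hm w hwc hws hwV
  have h2 : ∫ y, evalForm (w y) bW ∂bW.addHaar = 1 := by
    rw [hbW', ← ho6]
    refine integral_congr_ae (Eventually.of_forall fun y => ?_)
    have h3 : (bW : Fin (l + k) → W) = fun i => b (Fin.cast hd i) := funext hbW
    simp only [h3]
    exact evalForm_cast hd b (w y)
  rw [h2, mul_one] at h1
  rw [← h1, h.fubini bV bF hB.measurableSet hBc ho1, ← hmap, hLm.setIntegral_map]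
  refine setIntegral_congr_fun hUo.measurableSet fun x hx => ?_
  change evalForm (Q.cw rst (pb P om) (L x)) bZ = evalForm (pb (fun x => nP P (L x)) w x) bW
  rw [← h.pb_nP ho4 (hBO hx.1) hx.2, ← hL]
  rw [pb_comp w ((h.at_nP (hBO hx.1) hx.2).differentiableAt (by simp)) L.differentiableAt]
  change _ = evalForm (Fm.pull (fderiv ℝ L x) (pb (nP P) w (L x))) bW
  rw [L.fderiv, evalForm_pull]
  rfl

end Vale.Agent.P231.S3E
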