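import Vale.Agent.P231.WG.Fibre

/-!
# P231, stage 3, block (E), 3: the fibre integral does not depend on the cut-off function
-/

set_option linter.unusedSectionVars false
set_option linter.unusedVariables false

open Module MeasureTheory Set Filter
open scoped ContDiff Topology

namespace Vale.Agent.P231.S3E

open Vale.Agent.P231.Fm
open Vale.Agent.P231.Q (dR Cut)

variable {V : Type*} [NormedAddCommGroup V] [NormedSpace ℝ V] [FiniteDimensional ℝ V]
variable {F : Type*} [NormedAddCommGroup F] [NormedSpace ℝ F] [FiniteDimensional ℝ F]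
  [MeasurableSpace F] [BorelSpace F]

theorem phi_indep (μ : Measure F) [μ.IsAddHaarMeasure] {k : ℕ} (b : Basis (Fin k) ℝ F)
    {r r' : F → ℝ} {K K' : Set F} (hr : Cut r K) (hr' : Cut r' K') {U : Set V} (hU : IsOpen U)
    {w : V × F → Lam (V × F)} (hw : ContDiffOn ℝ ∞ w (U ×ˢ {0}ᶜ))
    (hcl : ∀ x ∈ U, ∀ y ≠ 0, extd w (x, y) = 0)
    (hk : ∀ x ∈ U, ∀ y ≠ 0, iprod ((0, y) : V × F) (w (x, y)) = 0) {x : V} (hx : x ∈ U) :
    Q.phi μ b r w x = Q.phi μ b r' w x := by
  let g : V × F → ℝ := fun z => r z.2 - r' z.2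
  have hg : ContDiff ℝ ∞ g := (hr.smooth.comp contDiff_snd).sub (hr'.smooth.comp contDiff_snd)
  have hg1 : ∀ x : V, ∀ y ∉ K ∪ K', g (x, y) = 0 := by
    intro x y hy
    rw [mem_union, not_or] at hy
    simp [g, hr.one y hy.1, hr'.one y hy.2]
  let G : V × F → Lam (V × F) := fun z => g z • w z
  have hG0 : ∀ x : V, G =ᶠ[𝓝 ((x, 0) : V × F)] fun _ => 0 := by
    intro x
    have h1 : Tendsto (Prod.snd : V × F → F) (𝓝 (x, 0)) (𝓝 0) := continuous_snd.continuousAt
    filter_upwards [h1.eventually hr.zero, h1.eventually hr'.zero] with z h2 h3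
    simp [G, g, h2, h3]
  have hG : ContDiffOn ℝ 1 G (U ×ˢ univ) := by
    rintro ⟨x, y⟩ ⟨hx, -⟩
    refine ContDiffAt.contDiffWithinAt ?_
    rcases eq_or_ne y 0 with rfl | hy
    · exact (contDiffAt_const (c := (0 : Lam (V × F)))).congr_of_eventuallyEq (hG0 x)
    · exact (hg.contDiffAt.smul (hw.contDiffAt
        ((hU.prod isOpen_compl_singleton).mem_nhds ⟨hx, hy⟩))).of_le (by simp)
  have hGK : ∀ x ∈ U, ∀ y ∉ K ∪ K', G (x, y) = 0 := fun x _ y hy => by
    simp only [G]
    rw [hg1 x y hy, zero_smul]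
  have h1 := extd_fib μ hU (hr.compact.union hr'.compact) b hG hGK hx
  have h2 : ∀ x ∈ U, fib μ b G x = 0 := by
    intro x hx
    rw [fib]
    refine (integral_congr_ae (g := fun _ => (0 : Lam V))
      (Eventually.of_forall fun y => ?_)).trans (by simp)
    change slice b (G (x, y)) = 0
    rcases eq_or_ne y 0 with rfl | hy
    · rw [(hG0 x).self_of_nhds, map_zero]
    · simp only [G]
      rw [map_smul, WG.slice_eq_zero b hy (hk x hx y hy), smul_zero]
  have h3 : extd (fib μ b G) x = 0 := by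
    have h4 : fib μ b G =ᶠ[𝓝 x] fun _ => 0 := by
      filter_upwards [hU.mem_nhds hx] with z hz using h2 z hz
    rw [extd_congr h4, extd_const]
  rw [h3, smul_zero] at h1
  have h5 : ∀ y, extd G (x, y) = Q.cw r w (x, y) - Q.cw r' w (x, y) := by
    intro y
    rcases eq_or_ne y 0 with rfl | hy
    · rw [extd_congr (hG0 x), extd_const, (Q.cw_near hr w x).self_of_nhds,
        (Q.cw_near hr' w x).self_of_nhds, sub_zero]
    · have hmem : ((x, y) : V × F) ∈ U ×ˢ ({0}ᶜ : Set F) := ⟨hx, hy⟩
      have h6 : extd G (x, y) = dx (fderiv ℝ g (x, y)) * w (x, y) + g (x, y) • extd w (x, y) :=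
        extd_smul (hg.differentiable (by simp) _) ((hw.contDiffAt
          ((hU.prod isOpen_compl_singleton).mem_nhds hmem)).differentiableAt (by simp))
      have h7 : fderiv ℝ g (x, y) = (fderiv ℝ r y) ∘L (ContinuousLinearMap.snd ℝ V F) -
          (fderiv ℝ r' y) ∘L (ContinuousLinearMap.snd ℝ V F) := by
        have e1 : HasFDerivAt (fun z : V × F => r z.2)
            ((fderiv ℝ r y) ∘L (ContinuousLinearMap.snd ℝ V F)) (x, y) :=
          HasFDerivAt.comp (g := r) (f := Prod.snd) (x, y)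
            (hr.smooth.differentiable (by simp) y).hasFDerivAt hasFDerivAt_snd
        have e2 : HasFDerivAt (fun z : V × F => r' z.2)
            ((fderiv ℝ r' y) ∘L (ContinuousLinearMap.snd ℝ V F)) (x, y) :=
          HasFDerivAt.comp (g := r') (f := Prod.snd) (x, y)
            (hr'.smooth.differentiable (by simp) y).hasFDerivAt hasFDerivAt_snd
        exact (e1.sub e2).fderiv
      rw [h6, hcl x hx y hy, smul_zero, add_zero, h7, map_sub, sub_mul]
      simp only [Q.cw, Q.ps, dR, pull_dx]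
  have h8 : fib μ b (extd G) x = Q.phi μ b r w x - Q.phi μ b r' w x := by
    rw [Q.phi, Q.phi, fib, fib, fib, ← integral_sub (Q.integrable_slice μ b hr hU hw hx)
      (Q.integrable_slice μ b hr' hU hw hx)]
    refine integral_congr_ae (Eventually.of_forall fun y => ?_)
    change slice b (extd G (x, y)) = _
    rw [h5, map_sub]
  rw [h8] at h1
  exact sub_eq_zero.1 h1

end Vale.Agent.P231.S3E
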