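import Vale.Agent.P231.H304.Alpha
import Vale.Agent.P231.WG.BasUT
import Vale.Agent.P231.WG.TopD
import Vale.Agent.P231.WG.Stokes
import Vale.Agent.P231.S2I.LH1
import Vale.Agent.P231.S3E479.E1
import Vale.Agent.P231.S3E479.EI
import Vale.Agent.P231.S3E479.Indep

/-!
# P231, stage 3, block (E), 7: `∫ α (dα)^N` is an integral multiple of `(2 D)^(N+1)`, given an
equivariant map of the unit tangent bundle to `ℂ^(N+1) ∖ 0`
-/

set_option maxSynthPendingDepth 3
set_option linter.unusedSectionVars false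
set_option linter.unusedVariables false

open Bundle Manifold Set Filter Module Topology MeasureTheory
open scoped ContDiff Manifold Topology

namespace Vale.Agent.P231.S3E

open Vale.Agent.P234 Vale.Agent.P231 Vale.Agent.P231.Fm Vale.Agent.P231.W Vale.Agent.P231.H775
  Vale.Agent.P231.WG Vale.Agent.P231.S2I Vale.Agent.P231.H584
open Vale.Agent.P231.Q (dR)
open Vale.Agent.P231.EN (om)
open Vale.Agent.P231.TW (Hom)

noncomputable section

variable {E : Type*} [NormedAddCommGroup E] [NormedSpace ℝ E]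
  {M : Type*} [MetricSpace M] [ChartedSpace E M]
  [RiemannianBundle (fun x : M => TangentSpace 𝓘(ℝ, E) x)]
  {e : ∀ x : M, TangentSpace 𝓘(ℝ, E) x → M}
  [FiniteDimensional ℝ E] [IsManifold 𝓘(ℝ, E) ∞ M]
  [IsContMDiffRiemannianBundle 𝓘(ℝ, E) ∞ E (fun x : M => TangentSpace 𝓘(ℝ, E) x)]
  {p : M} {R : ℝ} {N : ℕ}

/-- the coordinate expression of a nowhere zero map is a homogeneous map -/
theorem hmap_cc (X : Fr e p R) (v0 : UT E M) {D : ℝ} (hDR : D < R) {n : ℕ}
    {H : UT E M → WW n} (hH : (dUT E M).Map (Dif.lin (WW n)) H) (hne : ∀ v, H v ≠ 0) :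
    HMap (Metric.ball (0 : Eu E) D) (Metric.ball (0 : Eu E) R)
      (fun z : Eu E × Eu E => H (cc X v0 z)) where
  opn := Metric.isOpen_ball
  sub := Metric.closure_ball_subset_closedBall.trans (Metric.closedBall_subset_ball hDR)
  smooth := by
    rintro z ⟨h1, h2⟩
    have h3 : Sm (fun z : Eu E × Eu E => H (cc X v0 z)) z :=
      hH (at_cc X v0 (mem_ball_zero_iff.1 h1) h2)
    exact h3.contDiffAt.contDiffWithinAt
  ne := fun x _ z _ => hne _
  hom := fun x hx z hz c hc => by
    rw [cc_smul X v0 (z := (x, z)) (mem_ball_zero_iff.1 hx) hz hc]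

variable [CompactSpace M] [ConnectedSpace M] [IsRiemannianManifold 𝓘(ℝ, E) M]

/-- the integral of a pulled back closed form does not depend on the cut-off function -/
theorem II_pull_eq (X : Fr e p R) (v0 : UT E M) {D : ℝ} (hDR : D < R) {k : ℕ}
    (b : Basis (Fin k) ℝ (Eu E)) {r : Eu E → ℝ} {K : Set (Eu E)} (hr : Q.Cut r K) {n : ℕ}
    {H : UT E M → WW n} (hH : (dUT E M).Map (Dif.lin (WW n)) H) (hne : ∀ v, H v ≠ 0)
    {w : WW n → Lam (WW n)} (hw : ContDiffOn ℝ ∞ w {x | x ≠ 0}) (hd : ∀ x ≠ 0, extd w x = 0) :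
    II X v0 b hr hDR (Form.pull H (map_on hH hne) (ofOn isOpen_ne w hw)) =
      ∫ x in Metric.ball (0 : Eu E) D, evalForm (Q.phi volume b rst
        (pb (fun z : Eu E × Eu E => H (cc X v0 z)) w) x) b := by
  set W : Form (dUT E M) := Form.pull H (map_on hH hne) (ofOn isOpen_ne w hw) with hW
  have hWd : W.d = 0 := by
    rw [hW, ← Form.pull_d, d_ofOn]
    have h1 : ofOn isOpen_ne (extd w) (contDiffOn_extd isOpen_ne hw) = 0 :=
      ext_id isOpen_ne fun x hx => by
        rw [ofOn_val_id isOpen_ne _ _ hx, hd x hx, Form.zero_val]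
    rw [h1]
    exact map_zero (Form.pullA H (map_on hH hne))
  rw [II_apply]
  refine setIntegral_congr_fun measurableSet_ball fun x hx => ?_
  have hxR : x ∈ Metric.ball (0 : Eu E) R := Metric.ball_subset_ball hDR.le hx
  have hxR' : ‖x‖ < R := mem_ball_zero_iff.1 hxR
  have h1 : th X v0 b r W x = Q.phi volume b rst (W.val (cc X v0)) x := by
    refine phi_indep volume b hr cut_rst Metric.isOpen_ball (contDiffOn_val X v0 W)
      (fun x hx y hy => ?_) (fun x hx y hy => iprod_radial X v0 W (mem_ball_zero_iff.1 hx) hy) hxR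
    rw [← Form.d_val W (at_cc X v0 (z := (x, y)) (mem_ball_zero_iff.1 hx) hy), hWd, Form.zero_val]
  have h2 : Q.phi volume b rst (W.val (cc X v0)) x =
      Q.phi volume b rst (pb (fun z : Eu E × Eu E => H (cc X v0 z)) w) x := by
    refine Q.phi_congr volume b cut_rst fun y hy => ?_
    rw [hW, Form.pull_val (map_on hH hne) _ (at_cc X v0 (z := (x, y)) hxR' hy),
      ofOn_val isOpen_ne w hw ((map_on hH hne) (at_cc X v0 (z := (x, y)) hxR' hy))]
    rfl
  rw [h1, h2]

/-- **block (E), given the equivariant map** -/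
theorem exists_int_of_map (F : Facts e) {D : ℝ} (hD : 0 < D) (hB : InjGE e D)
    (hdiam : ∀ p q : M, dist p q ≤ D)
    (hP : ∀ x y : M, dist x y = D → 2 ≤ finrank ℝ (H775.Pl e D x y))
    (hN : finrank ℝ E = N + 1) (X : Fr e p R) (v0 : UT E M)
    (b : OrthonormalBasis (Fin (N + 1)) ℝ (Eu E)) {r : Eu E → ℝ} {K : Set (Eu E)}
    (hr : Q.Cut r K) (hDR : D < R)
    {H : UT E M → WW (N + 1)} (hH : (dUT E M).Map (Dif.lin (WW (N + 1))) H)
    (hne : ∀ v, H v ≠ 0) (heq : ∀ v t, H (phi F (v, t)) = RW (N + 1) (Real.pi / D) (H v, t)) :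
    ∃ m : ℤ, II X v0 b.toBasis hr hDR (CV.alpha E M * (CV.alpha E M).d ^ N) =
      (2 * D) ^ (N + 1) * m := by
  set c : ℝ := Real.pi / D with hc
  have hc0 : c ≠ 0 := div_ne_zero Real.pi_ne_zero hD.ne'
  set I := II X v0 b.toBasis hr hDR with hI
  have hId : ∀ w : Form (dUT E M), I w.d = 0 := fun w =>
    II_d F hD hB hdiam hP X v0 b.toBasis hr hDR w
  have hIm : ∀ w, I w = I (Form.part (2 * N + 1) w) := fun w =>
    II_part X v0 b.toBasis hr hDR rfl w
  have hIb : ∀ w : Form (dUT E M), Basic (phi F) (isFlow_phi F hD hB hdiam).map w → I w = 0 :=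
    fun w hw => int_basic_phi F hN I hIm w hw
  set A : Form (dUT E M) := Form.pull H (map_on hH hne) (bF (N + 1)) with hA
  have hA1 : Form.pull (phi F) (isFlow_phi F hD hB hdiam).map A = pr A + c • dt :=
    pull_flow_bF (isFlow_phi F hD hB hdiam).map hH hne heq
  have hAo : A.sg = -A := by
    rw [hA, ← Form.pull_sg, bF_odd]
    exact map_neg (Form.pullA H (map_on hH hne)) (bF (N + 1))
  -- comparison of the connection forms
  have h1 : I (CV.alpha E M * (CV.alpha E M).d ^ N) = I ((c⁻¹ • A) * (c⁻¹ • A).d ^ N) := by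
    refine conn_pow_indep (isFlow_phi F hD hB hdiam) (T := 2 * D) (by positivity)
      (CV.pull_phi_alpha F) ?_ (CV.isDeg_alpha.sg_of_odd (by norm_num)) ?_ I hId hIb N
    · refine (map_smul (Form.pullA (phi F) (isFlow_phi F hD hB hdiam).map) c⁻¹ A).trans ?_
      change c⁻¹ • Form.pull (phi F) (isFlow_phi F hD hB hdiam).map A = _
      rw [hA1, smul_add, smul_smul, inv_mul_cancel₀ hc0, one_smul, H584.pr_smul]
    · rw [Form.sg_smul, hAo, smul_neg]
  -- the standard form
  have h2 : (c⁻¹ • A) * (c⁻¹ • A).d ^ N = (c⁻¹) ^ (N + 1) •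
      Form.pull H (map_on hH hne) (bF (N + 1) * (bF (N + 1)).d ^ N) := by
    have e1 : Form.pull H (map_on hH hne) (bF (N + 1) * (bF (N + 1)).d ^ N) = A * A.d ^ N := by
      refine (map_mul (Form.pullA H (map_on hH hne)) _ _).trans ?_
      rw [map_pow]
      congr 2
      exact Form.pull_d _ _ _
    rw [e1, Form.d_smul, smul_pow, smul_mul_smul_comm, pow_succ']
  -- the bump form
  have hmap := hmap_cc X v0 hDR hH hne
  have hb1 : b.toBasis.addHaar = (volume : Measure (Eu E)) := b.addHaar_eq_volume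
  have hfr : b.toBasis.addHaar (frontier (Metric.ball (0 : Eu E) D)) = 0 := by
    rw [frontier_ball (0 : Eu E) hD.ne']
    exact Measure.addHaar_sphere_of_ne_zero _ _ hD.ne'
  obtain ⟨w, w1, w2, w3, w4, w5, m, hm⟩ := hmap.exists_int (n := N) (bW (N + 1)) b.toBasis
    b.toBasis (by omega) Metric.isOpen_ball
    ((isCompact_closedBall (0 : Eu E) D).closure_of_subset Metric.ball_subset_closedBall) hfr
  rw [hb1] at hm
  have w1' : ContDiffOn ℝ ∞ w {x | x ≠ 0} := w1
  -- the cohomology of the punctured space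
  obtain ⟨ζ, z1, z2, z3⟩ := exists_top_prim (bW (N + 1)) (j := 2 * N) (by ring)
    (σ := om (bw (N + 1)) N) (ω' := w)
    (fun x hx => ((conn_bw (N + 1)).smooth_om N hx).contDiffWithinAt)
    (fun x hx => extd_om_bw N hx) (fun x hx => isDeg_om_bw (N + 1) N hx) w1' w3
    (fun x hx => w2 x) (cut_rst (E := WW (N + 1))) w5
  rw [integral_om_bw N (cut_rst (E := WW (N + 1)))] at z3
  have h3 : bF (N + 1) * (bF (N + 1)).d ^ N = (2 * Real.pi) ^ (N + 1) • ofOn isOpen_ne w w1' +
      (ofOn isOpen_ne ζ z1).d := ext_id isOpen_ne fun x hx => by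
    rw [bF_pow_val (N + 1) N hx, Form.add_val, Form.smul_val, ofOn_val_id isOpen_ne _ _ hx,
      d_ofOn, ofOn_val_id isOpen_ne _ _ hx, z3 x hx]
  have h4 : I (Form.pull H (map_on hH hne) (bF (N + 1) * (bF (N + 1)).d ^ N)) =
      (2 * Real.pi) ^ (N + 1) * m := by
    have e1 : Form.pull H (map_on hH hne) (bF (N + 1) * (bF (N + 1)).d ^ N) =
        (2 * Real.pi) ^ (N + 1) • Form.pull H (map_on hH hne) (ofOn isOpen_ne w w1') +
        (Form.pull H (map_on hH hne) (ofOn isOpen_ne ζ z1)).d := by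
      rw [h3, ← Form.pull_d]
      refine (map_add (Form.pullA H (map_on hH hne)) _ _).trans ?_
      rw [map_smul]
      rfl
    rw [e1, map_add, hId, add_zero, map_smul, smul_eq_mul, hI,
      II_pull_eq X v0 hDR b.toBasis hr hH hne w1' w3, hm]
  refine ⟨m, ?_⟩
  rw [h1, h2, map_smul, h4, smul_eq_mul, hc, ← mul_assoc, ← mul_pow]
  congr 2
  have := Real.pi_ne_zero
  have := hD.ne'
  field_simp

end

end Vale.Agent.P231.S3E
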